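import Vale.Agent.P007.Stmt

open MeasureTheory Matrix
open scoped nonZeroDivisors ENNReal

namespace Vale.Agent.P007

instance (n : ℕ) : BorelSpace (X n) := ⟨rfl⟩

/-- The right action of `SL_n(ℝ)` on `X_n`. -/
def X.rmul {n : ℕ} (x : X n) (h : SLR n) : X n :=
  Quotient.map (fun g => g * h)
    (by
      rintro a b ⟨γ, rfl⟩
      exact ⟨γ, by simp [Subgroup.smul_def, mul_assoc]⟩) x

/-- The orbit `x A_n`. -/
noncomputable def torusOrbit {n : ℕ} (x : X n) : Set (X n) :=
  Set.range (fun u : Fin (n - 1) → ℝ => x.rmul (torus u))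

/-- an `O`-stable additive subgroup, commensurable with `O` -/
structure IsFrac {K : Type} [Field K] (O : Subring K) (I : AddSubgroup K) : Prop where
  ne : ∃ x ∈ I, x ≠ 0
  smul : ∀ a ∈ O, ∀ x ∈ I, a * x ∈ I
  den : ∃ d : K, d ≠ 0 ∧ ∀ x ∈ I, d * x ∈ O

/-- `x` is the covolume-one lattice homothetic to `σ(I) w` for some fractional
`O`-ideal `I` and some diagonal sign matrix `w`. -/
def IsFracPoint {n : ℕ} {K : Type} [Field K] [NumberField K] (σ : Fin n ≃ (K →+* ℝ))
    (O : Subring K) (x : X n) : Prop :=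
  ∃ (I : AddSubgroup K) (w : Fin n → ℤˣ) (c : ℝ) (g : SLR n),
    IsFrac O I ∧ 0 < c ∧ x = X.mk g ∧
      rowLattice g = {v | ∃ α ∈ I, v = fun j => c * (σ j α * ((w j : ℤ) : ℝ))}

lemma fullCoord_add {n : ℕ} (u v : Fin (n - 1) → ℝ) :
    fullCoord (u + v) = fullCoord u + fullCoord v := by
  funext j
  simp only [fullCoord, Pi.add_apply]
  split_ifs
  · rfl
  · rw [Finset.sum_add_distrib]; ring

lemma torus_add {n : ℕ} (u v : Fin (n - 1) → ℝ) : torus (u + v) = torus u * torus v := by
  apply Subtype.ext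
  rw [Matrix.SpecialLinearGroup.coe_mul]
  simp only [torus, fullCoord_add, Pi.add_apply, Real.exp_add, Matrix.diagonal_mul_diagonal]

lemma torus_zero {n : ℕ} : torus (0 : Fin (n - 1) → ℝ) = 1 := by
  have h := torus_add (n := n) 0 0
  rw [add_zero] at h
  exact (left_eq_mul.mp h)

lemma X.rmul_mul {n : ℕ} (x : X n) (g h : SLR n) : x.rmul (g * h) = (x.rmul g).rmul h := by
  induction x using Quotient.inductionOn with
  | _ a =>
    simp only [X.rmul, Quotient.map_mk, mul_assoc]
    rfl

lemma X.rmul_one {n : ℕ} (x : X n) : x.rmul 1 = x := by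
  induction x using Quotient.inductionOn with
  | _ a =>
    simp only [X.rmul, Quotient.map_mk, mul_one]
    rfl

/-- The stabiliser of `x` in `A_n ≅ ℝ^{n-1}`. -/
noncomputable def torusStabilizer {n : ℕ} (x : X n) : AddSubgroup (Fin (n - 1) → ℝ) where
  carrier := {u | x.rmul (torus u) = x}
  zero_mem' := by
    change x.rmul (torus 0) = x
    rw [torus_zero, X.rmul_one]
  add_mem' := by
    intro a b ha hb
    change x.rmul (torus (a + b)) = x
    have ha' : x.rmul (torus a) = x := ha
    have hb' : x.rmul (torus b) = x := hb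
    rw [torus_add, X.rmul_mul, ha', hb']
  neg_mem' := by
    intro a ha
    change x.rmul (torus (-a)) = x
    have ha' : x.rmul (torus a) = x := ha
    conv_lhs => rw [← ha']
    rw [← X.rmul_mul, ← torus_add, add_neg_cancel, torus_zero, X.rmul_one]

end Vale.Agent.P007
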