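import Vale.Agent.P007.Packet

open MeasureTheory Matrix Topology Filter Set NumberField
open scoped nonZeroDivisors ENNReal Pointwise

namespace Vale.Agent.P007

variable {n : ℕ}

section nonempty

variable {K : Type} [Field K] [NumberField K] (σ : Fin n ≃ (K →+* ℝ)) {O : Subring K}

lemma det_ne_zero (b : Module.Basis (Fin n) ℚ K) :
    (Matrix.of fun i j => σ j (b i)).det ≠ 0 := by
  intro h
  obtain ⟨c, hc0, hc⟩ := Matrix.exists_mulVec_eq_zero_iff.2 h
  apply hc0
  have h1 : ∀ i, ∑ j, σ j (b i) * c j = 0 := by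
    intro i
    have := congrFun hc i
    simpa [Matrix.mulVec, dotProduct] using this
  have h2 : ∀ x : K, ∑ j, c j * σ j x = 0 := by
    intro x
    let f : K →ₗ[ℚ] ℝ := ∑ j, c j • ((σ j).toRatAlgHom.toLinearMap)
    have hf : ∀ x, f x = ∑ j, c j * σ j x := by
      intro x
      simp [f, LinearMap.sum_apply]
    have hf0 : f = 0 := by
      apply b.ext
      intro i
      rw [hf, LinearMap.zero_apply, ← h1 i]
      exact Finset.sum_congr rfl fun j _ => mul_comm _ _
    rw [← hf, hf0, LinearMap.zero_apply]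
  have h3 := linearIndependent_monoidHom K ℝ
  have hinj : Function.Injective (fun j : Fin n => ((σ j : K →+* ℝ) : K →* ℝ)) := by
    intro j k hjk
    apply σ.injective
    ext x
    exact DFunLike.congr_fun hjk x
  have h4 := h3.comp _ hinj
  rw [Fintype.linearIndependent_iff] at h4
  funext j
  apply h4 c _ j
  funext x
  simp only [Finset.sum_apply, Pi.smul_apply, Function.comp, smul_eq_mul, Pi.zero_apply]
  exact h2 x

lemma exists_int_basis (hn : Module.finrank ℚ K = n) (hO : IsOrder O) :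
    ∃ (b : Module.Basis (Fin n) ℚ K), (∀ i, b i ∈ O) ∧
      ∀ α ∈ O, ∃ z : Fin n → ℤ, α = ∑ i, (z i : K) * b i := by
  classical
  let ι₂ : O →+ 𝓞 K :=
    { toFun := fun x => ⟨(x : K), hO.1 _ x.2⟩
      map_zero' := rfl
      map_add' := fun _ _ => rfl }
  let ι₀ : O →ₗ[ℤ] 𝓞 K := ι₂.toIntLinearMap
  have hinj : Function.Injective ι₀ := by
    intro x y h
    have := congrArg (fun z : 𝓞 K => (z : K)) h
    exact Subtype.ext this
  have : Module.Finite ℤ O := Module.Finite.of_injective ι₀ hinj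
  have : Module.IsTorsionFree ℤ O := hinj.moduleIsTorsionFree ι₀ (fun _ _ => map_smul _ _ _)
  have : Module.Free ℤ O := Module.free_of_finite_type_torsion_free'
  let b := Module.Free.chooseBasis ℤ O
  let ι₁ : O →ₗ[ℤ] K := O.subtype.toAddMonoidHom.toIntLinearMap
  have hι₁ : Function.Injective ι₁ := Subtype.val_injective
  have hli : LinearIndependent ℤ (fun i => (b i : K)) :=
    b.linearIndependent.map' ι₁ (LinearMap.ker_eq_bot.2 hι₁)
  have hliQ : LinearIndependent ℚ (fun i => (b i : K)) :=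
    (LinearIndependent.iff_fractionRing ℤ ℚ).1 hli
  have hrep : ∀ α : O, (α : K) = ∑ i, ((b.repr α i : ℤ) : K) * (b i : K) := by
    intro α
    have h1 := b.sum_repr α
    have h2 : ((∑ i, (b.repr α i) • b i : O) : K) = (α : K) :=
      congrArg (fun z : O => (z : K)) h1
    rw [← h2]
    push_cast
    simp
  have hspan : ⊤ ≤ Submodule.span ℚ (Set.range (fun i => (b i : K))) := by
    rw [← hO.2, Submodule.span_le]
    intro α hα
    have h5 : α = ∑ i, ((b.repr ⟨α, hα⟩ i : ℤ) : K) * (b i : K) := hrep ⟨α, hα⟩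
    rw [SetLike.mem_coe, h5]
    apply Submodule.sum_mem
    intro i _
    have h3 : ((b.repr ⟨α, hα⟩ i : ℤ) : K) * (b i : K) =
        ((b.repr ⟨α, hα⟩ i : ℤ) : ℚ) • (b i : K) := by
      rw [Algebra.smul_def]
      simp
    rw [h3]
    exact Submodule.smul_mem _ _ (Submodule.subset_span ⟨i, rfl⟩)
  let bK := Module.Basis.mk hliQ hspan
  have hcard : Fintype.card (Module.Free.ChooseBasisIndex ℤ O) = n := by
    rw [← hn, Module.finrank_eq_card_basis bK]
  let e : Module.Free.ChooseBasisIndex ℤ O ≃ Fin n := Fintype.equivFinOfCardEq hcard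
  refine ⟨bK.reindex e, ?_, ?_⟩
  · intro i
    rw [Module.Basis.reindex_apply, Module.Basis.mk_apply]
    exact (b _).2
  · intro α hα
    refine ⟨fun i => b.repr ⟨α, hα⟩ (e.symm i), ?_⟩
    have h4 : α = ∑ i, ((b.repr ⟨α, hα⟩ i : ℤ) : K) * (b i : K) := hrep ⟨α, hα⟩
    conv_lhs => rw [h4]
    rw [← e.symm.sum_comp]
    apply Finset.sum_congr rfl
    intro i _
    rw [Module.Basis.reindex_apply, Module.Basis.mk_apply]

lemma exists_packetPoint (hn : Module.finrank ℚ K = n) (hO : IsOrder O) :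
    ∃ (w : Fin n → ℤˣ) (c : ℝ) (g : SLR n), 0 < c ∧
      rowLattice g = {v | ∃ α ∈ O.toAddSubgroup, v = fun j => c * (σ j α * ((w j : ℤ) : ℝ))} := by
  classical
  obtain ⟨b, hbO, hb⟩ := exists_int_basis hn hO
  set M : Matrix (Fin n) (Fin n) ℝ := Matrix.of fun i j => σ j (b i) with hM
  have hdet : M.det ≠ 0 := det_ne_zero σ b
  have hnpos : 0 < n := by rw [← hn]; exact Module.finrank_pos
  set c : ℝ := |M.det| ^ (-(1 / (n : ℝ))) with hc
  have hcpos : 0 < c := Real.rpow_pos_of_pos (abs_pos.2 hdet) _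
  have hcn : c ^ n * |M.det| = 1 := by
    rw [hc, ← Real.rpow_natCast, ← Real.rpow_mul (abs_nonneg _)]
    have h1 : -(1 / (n : ℝ)) * (n : ℝ) = -1 := by
      have : (n : ℝ) ≠ 0 := by exact_mod_cast hnpos.ne'
      field_simp
    rw [h1, Real.rpow_neg_one]
    exact inv_mul_cancel₀ (abs_pos.2 hdet).ne'
  let w : Fin n → ℤˣ := Function.update 1 ⟨0, hnpos⟩ (sg M.det)
  have hw : ∏ j, (((w j : ℤˣ) : ℤ) : ℝ) = (((sg M.det : ℤˣ) : ℤ) : ℝ) := by
    rw [Finset.prod_eq_single (⟨0, hnpos⟩ : Fin n)]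
    · simp [w]
    · intro j _ hj
      simp [w, Function.update_of_ne hj]
    · intro h
      exact absurd (Finset.mem_univ _) h
  set G : Matrix (Fin n) (Fin n) ℝ := Matrix.of fun i j =>
    c * (σ j (b i) * ((w j : ℤ) : ℝ)) with hG
  have hGM : G = M * Matrix.diagonal (fun j => c * ((w j : ℤ) : ℝ)) := by
    ext i j
    rw [Matrix.mul_diagonal, hG, hM]
    simp only [Matrix.of_apply]
    ring
  have hGdet : G.det = 1 := by
    rw [hGM, Matrix.det_mul, Matrix.det_diagonal, Finset.prod_mul_distrib, hw,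
      Finset.prod_const, Finset.card_univ, Fintype.card_fin, ← hcn, ← mul_sg hdet]
    ring
  refine ⟨w, c, ⟨G, hGdet⟩, hcpos, ?_⟩
  have hcomb : ∀ z : Fin n → ℤ, (fun i => (z i : ℝ)) ᵥ* G =
      fun j => c * (σ j (∑ i, (z i : K) * b i) * ((w j : ℤ) : ℝ)) := by
    intro z
    funext j
    simp only [Matrix.vecMul, dotProduct, hG, Matrix.of_apply, map_sum, map_mul, map_intCast,
      Finset.sum_mul, Finset.mul_sum]
    apply Finset.sum_congr rfl
    intro i _
    ring
  ext v
  constructor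
  · rintro ⟨z, rfl⟩
    refine ⟨∑ i, (z i : K) * b i, ?_, hcomb z⟩
    have h1 : ∑ i, (z i : K) * b i ∈ O :=
      O.sum_mem fun i _ => O.mul_mem (intCast_mem O _) (hbO i)
    exact h1
  · rintro ⟨α, hα, rfl⟩
    obtain ⟨z, hz⟩ := hb _ hα
    refine ⟨z, ?_⟩
    change _ = (fun i => (z i : ℝ)) ᵥ* G
    rw [hcomb z, ← hz]

end nonempty

section assembly

variable {K : Type} [Field K] [NumberField K] (σ : Fin n ≃ (K →+* ℝ)) {O : Subring K}

lemma packet_finite (hO : IsOrder O) : (packet σ O).Finite := by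
  refine (packet_finite' σ hO).subset ?_
  intro S hS
  exact packet_isFracPoint hS

omit [NumberField K] in
lemma isFractional_self : IsFractional O O.toAddSubgroup :=
  ⟨⟨1, O.one_mem, one_ne_zero⟩, fun _ ha _ hx => O.mul_mem ha hx,
    ⟨1, one_ne_zero, fun x hx => by rw [one_mul]; exact hx⟩⟩

omit [NumberField K] in
lemma isInvertible_self : IsInvertible O O.toAddSubgroup := by
  refine ⟨isFractional_self, ?_, O.toAddSubgroup, isFractional_self, ?_⟩
  · intro a
    constructor
    · intro h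
      have := h 1 O.one_mem
      rw [mul_one] at this
      exact this
    · intro ha x hx
      exact O.mul_mem ha hx
  · apply le_antisymm
    · rw [AddSubgroup.closure_le]
      rintro _ ⟨x, hx, y, hy, rfl⟩
      exact O.mul_mem hx hy
    · intro x hx
      exact AddSubgroup.subset_closure ⟨x, hx, 1, O.one_mem, (mul_one x).symm⟩

lemma packet_nonempty (hn : Module.finrank ℚ K = n) (hO : IsOrder O) :
    (packet σ O).Nonempty := by
  obtain ⟨w, c, g, hc, hg⟩ := exists_packetPoint σ hn hO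
  refine ⟨_, O.toAddSubgroup, w, c, g, isInvertible_self, hc, ?_, rfl⟩
  rw [hg]
  ext v
  constructor
  · rintro ⟨a, ha, rfl⟩
    exact ⟨a, ha, by funext j; ring⟩
  · rintro ⟨a, ha, rfl⟩
    exact ⟨a, ha, by funext j; ring⟩

theorem exists_packetMeasure (hn : Module.finrank ℚ K = n) (hO : IsOrder O) :
    ∃ μ, IsPacketMeasure σ O μ := by
  classical
  have hfin := packet_finite σ hO
  have hprop : ∀ S : Set (X n), S ∈ packet σ O →
      IsCompact S ∧ (∃ v, v ≠ 0 ∧ v ≠ ⊤ ∧ IsVolume S v) ∧ ∃ ν, IsOrbitProbability S ν := by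
    intro S hS
    obtain ⟨x, hx, rfl⟩ := packet_isFracPoint hS
    exact orbit_properties (discreteTopology_torusStabilizer x) (span_stab σ hn
      hO hx)
  have h1 : ∀ S : Set (X n), ∃ v : ℝ≥0∞, S ∈ packet σ O → IsVolume S v := by
    intro S
    by_cases hS : S ∈ packet σ O
    · obtain ⟨v, -, -, hv⟩ := (hprop S hS).2.1
      exact ⟨v, fun _ => hv⟩
    · exact ⟨0, fun h => absurd h hS⟩
  have h2 : ∀ S : Set (X n), ∃ ν : Measure (X n), S ∈ packet σ O → IsOrbitProbability S ν := by
    intro S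
    by_cases hS : S ∈ packet σ O
    · obtain ⟨ν, hν⟩ := (hprop S hS).2.2
      exact ⟨ν, fun _ => hν⟩
    · exact ⟨0, fun h => absurd h hS⟩
  choose vol hvol using h1
  choose ν hν using h2
  refine ⟨(∑ S ∈ hfin.toFinset, vol S)⁻¹ • ∑ S ∈ hfin.toFinset, vol S • ν S,
    hfin.toFinset, vol, ν, hfin.coe_toFinset, ?_, ?_⟩
  · intro S hS
    rw [Set.Finite.mem_toFinset] at hS
    exact ⟨(hprop S hS).1, hvol S hS, hν S hS⟩
  · intro B _
    rw [Measure.smul_apply, Measure.finsetSum_apply, smul_eq_mul, mul_comm, div_eq_mul_inv]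
    congr 1

theorem isProbabilityMeasure_packetMeasure (hn : Module.finrank ℚ K = n) (hO : IsOrder O)
    {μ : Measure (X n)} (hμ : IsPacketMeasure σ O μ) :
    IsProbabilityMeasure μ := by
  classical
  obtain ⟨P, vol, ν, hP, hS, hμ⟩ := hμ
  have hvol : ∀ S ∈ P, vol S ≠ 0 ∧ vol S ≠ ⊤ := by
    intro S hSP
    have h2 : S ∈ packet σ O := by rw [← hP]; exact hSP
    obtain ⟨x, hx, rfl⟩ := packet_isFracPoint h2
    obtain ⟨y, F, hy, hF, hFv⟩ := isVolume_fd (hS _ hSP).2.1
    have hst := torusStabilizer_eq_of_orbit hy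
    obtain ⟨F', hF', -, -, h0, h1, -⟩ := exists_fd _ (discreteTopology_torusStabilizer x)
      (span_stab σ hn hO hx)
    rw [← hst] at hF
    have : Countable (torusStabilizer x) := by
      have := discreteTopology_torusStabilizer x
      exact countable_of_Lindelof_of_discrete
    have h3 := hF.measure_eq hF'
    rw [hFv, h3]
    exact ⟨h0, h1⟩
  have hPne : P.Nonempty := by
    obtain ⟨S, hS⟩ := packet_nonempty σ hn hO
    rw [← hP] at hS
    exact ⟨S, hS⟩
  constructor
  rw [hμ _ MeasurableSet.univ]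
  have h1 : ∑ S ∈ P, vol S * ν S Set.univ = ∑ S ∈ P, vol S := by
    apply Finset.sum_congr rfl
    intro S hSP
    have := (hS S hSP).2.2.1
    rw [measure_univ, mul_one]
  rw [h1]
  apply ENNReal.div_self
  · intro h0
    obtain ⟨S, hSP⟩ := hPne
    exact (hvol S hSP).1 ((Finset.sum_eq_zero_iff.1 h0) S hSP)
  · rw [ENNReal.sum_ne_top]
    exact fun S hSP => (hvol S hSP).2

end assembly

end Vale.Agent.P007
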