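import Vale.Agent.P007.Meas

open MeasureTheory Matrix Topology Filter Set
open scoped nonZeroDivisors ENNReal Pointwise

namespace Vale.Agent.P007

variable {n : ℕ}

/-- Coordinatewise scaling of a set. -/
def scaleBy (s : Fin n → ℝ) (S : Set (Fin n → ℝ)) : Set (Fin n → ℝ) :=
  {v | ∃ x ∈ S, v = fun j => x j * s j}

lemma row_mem_rowLattice (g : SLR n) (i : Fin n) :
    (fun j => (g : Matrix (Fin n) (Fin n) ℝ) i j) ∈ rowLattice g := by
  refine ⟨Pi.single i 1, ?_⟩
  have : (fun k => ((Pi.single i 1 : Fin n → ℤ) k : ℝ)) = Pi.single i 1 := by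
    funext k
    by_cases hk : k = i
    · subst hk; simp
    · simp [hk]
  rw [this, Matrix.single_one_vecMul]
  rfl

/-- rows in the lattice of `h` give an integral matrix -/
lemma exists_int_matrix {M : Matrix (Fin n) (Fin n) ℝ} {h : SLR n}
    (hM : ∀ i, (fun j => M i j) ∈ rowLattice h) :
    ∃ A : Matrix (Fin n) (Fin n) ℤ,
      M = A.map (Int.castRingHom ℝ) * (h : Matrix (Fin n) (Fin n) ℝ) := by
  choose z hz using hM
  refine ⟨Matrix.of z, ?_⟩
  ext i j
  have h1 : M i j = ((fun k => ((z i k : ℤ) : ℝ)) ᵥ* (h : Matrix (Fin n) (Fin n) ℝ)) j :=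
    congrFun (hz i) j
  rw [h1]
  simp [Matrix.vecMul, Matrix.mul_apply, dotProduct]

lemma mk_eq_of_rowLattice {g h : SLR n} (e : rowLattice g = rowLattice h) :
    X.mk g = X.mk h := by
  obtain ⟨A, hA⟩ := exists_int_matrix (M := (g : Matrix (Fin n) (Fin n) ℝ)) (h := h)
    (fun i => by rw [← e]; exact row_mem_rowLattice g i)
  have hdet : A.det = 1 := by
    have h1 := congrArg Matrix.det hA
    rw [Matrix.det_mul, g.2, h.2, mul_one] at h1
    have h2 : (A.map (Int.castRingHom ℝ)).det = ((A.det : ℤ) : ℝ) := by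
      rw [← RingHom.mapMatrix_apply, ← RingHom.map_det]
      rfl
    rw [h2] at h1
    exact_mod_cast h1.symm
  rw [mk_eq_mk]
  refine ⟨Matrix.SpecialLinearGroup.map (Int.castRingHom ℝ) ⟨A, hdet⟩, ⟨_, rfl⟩, ?_⟩
  apply Subtype.ext
  rw [Matrix.SpecialLinearGroup.coe_mul]
  exact hA

lemma rowLattice_mul_left {g γ : SLR n} (hγ : γ ∈ SLZ n) :
    rowLattice (γ * g) = rowLattice g := by
  have key : ∀ (γ g : SLR n), γ ∈ SLZ n → rowLattice (γ * g) ⊆ rowLattice g := by
    rintro γ g ⟨A, rfl⟩ v ⟨z, rfl⟩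
    refine ⟨z ᵥ* (A : Matrix (Fin n) (Fin n) ℤ), ?_⟩
    rw [Matrix.SpecialLinearGroup.coe_mul, ← Matrix.vecMul_vecMul]
    congr 1
    funext i
    simp [Matrix.vecMul, dotProduct]
  apply Set.Subset.antisymm (key _ _ hγ)
  have := key γ⁻¹ (γ * g) ((SLZ n).inv_mem hγ)
  rwa [inv_mul_cancel_left] at this

lemma rowLattice_eq_of_mk {g h : SLR n} (e : X.mk g = X.mk h) : rowLattice g = rowLattice h := by
  obtain ⟨γ, hγ, rfl⟩ := mk_eq_mk.1 e
  exact rowLattice_mul_left hγ

lemma rowLattice_torus (g : SLR n) (u : Fin (n - 1) → ℝ) :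
    rowLattice (g * torus u) = scaleBy (fun j => Real.exp (fullCoord u j)) (rowLattice g) := by
  ext v
  constructor
  · rintro ⟨z, rfl⟩
    refine ⟨_, ⟨z, rfl⟩, ?_⟩
    rw [Matrix.SpecialLinearGroup.coe_mul, ← Matrix.vecMul_vecMul]
    funext j
    simp only [torus, Matrix.vecMul_diagonal]
  · rintro ⟨_, ⟨z, rfl⟩, rfl⟩
    refine ⟨z, ?_⟩
    rw [Matrix.SpecialLinearGroup.coe_mul, ← Matrix.vecMul_vecMul]
    funext j
    simp only [torus, Matrix.vecMul_diagonal]

lemma exists_fullCoord {s : Fin n → ℝ} (hs : ∑ j, s j = 0) :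
    ∃ u : Fin (n - 1) → ℝ, fullCoord u = s := by
  cases n with
  | zero => exact ⟨fun i => i.elim0, by funext j; exact j.elim0⟩
  | succ m =>
    refine ⟨fun i => s (Fin.castSucc i), ?_⟩
    have h0 := sum_fullCoord (n := m + 1) (fun i => s (Fin.castSucc i))
    rw [Fin.sum_univ_castSucc] at h0 hs
    have h1 : ∀ j : Fin m,
        fullCoord (n := m + 1) (fun i => s (Fin.castSucc i)) (Fin.castSucc j) =
          s (Fin.castSucc j) := by
      intro j
      simp [fullCoord]
    funext j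
    refine Fin.lastCases ?_ (fun i => h1 i) j
    simp only [h1] at h0
    linarith

lemma exists_torus_of_scale {g g' : SLR n} {s : Fin n → ℝ} (hs : ∀ j, 0 < s j)
    (e : rowLattice g' = scaleBy s (rowLattice g)) :
    ∃ u : Fin (n - 1) → ℝ, X.mk g' = (X.mk g).rmul (torus u) ∧
      (fun j => Real.exp (fullCoord u j)) = s := by
  have e1 : ∃ B : Matrix (Fin n) (Fin n) ℤ,
      (g : Matrix (Fin n) (Fin n) ℝ) * Matrix.diagonal s =
        B.map (Int.castRingHom ℝ) * (g' : Matrix (Fin n) (Fin n) ℝ) := by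
    apply exists_int_matrix
    intro i
    rw [e]
    refine ⟨_, row_mem_rowLattice g i, ?_⟩
    funext j
    rw [Matrix.mul_diagonal]
  have e2 : ∃ A : Matrix (Fin n) (Fin n) ℤ,
      (g' : Matrix (Fin n) (Fin n) ℝ) * Matrix.diagonal (fun j => (s j)⁻¹) =
        A.map (Int.castRingHom ℝ) * (g : Matrix (Fin n) (Fin n) ℝ) := by
    apply exists_int_matrix
    intro i
    have := row_mem_rowLattice g' i
    rw [e] at this
    obtain ⟨x, hx, hx2⟩ := this
    have h3 : (fun j => ((g' : Matrix (Fin n) (Fin n) ℝ) *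
        Matrix.diagonal (fun j => (s j)⁻¹)) i j) = x := by
      funext j
      rw [Matrix.mul_diagonal]
      have h4 : (g' : Matrix (Fin n) (Fin n) ℝ) i j = x j * s j := congrFun hx2 j
      rw [h4, mul_assoc, mul_inv_cancel₀ (hs j).ne', mul_one]
    rw [h3]
    exact hx
  obtain ⟨B, hB⟩ := e1
  obtain ⟨A, hA⟩ := e2
  have hmap : ∀ C : Matrix (Fin n) (Fin n) ℤ,
      (C.map (Int.castRingHom ℝ)).det = ((C.det : ℤ) : ℝ) := by
    intro C
    rw [← RingHom.mapMatrix_apply, ← RingHom.map_det]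
    rfl
  have hprodpos : 0 < ∏ j, s j := Finset.prod_pos fun j _ => hs j
  have hdB : ∏ j, s j = ((B.det : ℤ) : ℝ) := by
    have h1 := congrArg Matrix.det hB
    rw [Matrix.det_mul, Matrix.det_mul, g.2, g'.2, mul_one, one_mul, Matrix.det_diagonal,
      hmap] at h1
    exact h1
  have hdA : (∏ j, s j)⁻¹ = ((A.det : ℤ) : ℝ) := by
    have h1 := congrArg Matrix.det hA
    rw [Matrix.det_mul, Matrix.det_mul, g.2, g'.2, mul_one, one_mul, Matrix.det_diagonal,
      hmap, Finset.prod_inv_distrib] at h1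
    exact h1
  have hBA : B.det * A.det = 1 := by
    have : (∏ j, s j) * (∏ j, s j)⁻¹ = 1 := mul_inv_cancel₀ hprodpos.ne'
    rw [hdA, hdB] at this
    exact_mod_cast this
  have hBpos : 0 < B.det := by
    rw [hdB] at hprodpos
    exact_mod_cast hprodpos
  have hB1 : B.det = 1 := by
    rcases Int.isUnit_iff.1 (IsUnit.of_mul_eq_one _ hBA) with h | h
    · exact h
    · omega
  have hs1 : ∏ j, s j = 1 := by rw [hdB, hB1]; simp
  have hlog : ∑ j, Real.log (s j) = 0 := by
    rw [← Real.log_prod (fun j _ => (hs j).ne'), hs1, Real.log_one]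
  obtain ⟨u, hu⟩ := exists_fullCoord hlog
  have hexp : (fun j => Real.exp (fullCoord u j)) = s := by
    funext j
    rw [hu]
    exact Real.exp_log (hs j)
  refine ⟨u, ?_, hexp⟩
  rw [rmul_mk]
  apply mk_eq_of_rowLattice
  rw [rowLattice_torus, e, hexp]

lemma torus_injective_near : Function.Injective (torus (n := n)) := by
  intro u v h
  have h1 : ∀ j, fullCoord u j = fullCoord v j := by
    intro j
    have := congrArg (fun g : SLR n => (g : Matrix (Fin n) (Fin n) ℝ) j j) h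
    simp only [torus, Matrix.diagonal_apply_eq] at this
    exact Real.exp_injective this
  funext i
  have := h1 ⟨i, by omega⟩
  simpa [fullCoord] using this

lemma discrete_SLZ : ∃ U ∈ 𝓝 (1 : SLR n), ∀ g ∈ U, g ∈ SLZ n → g = 1 := by
  obtain ⟨K, hK, hKn⟩ := exists_compact_mem_nhds (1 : SLR n)
  have hfin : (((SLZ n : Set (SLR n)) ∩ K) \ {1}).Finite := by
    have h1 := tendsto_SLZ (n := n) hK.compl_mem_cocompact
    rw [Filter.mem_map, mem_cofinite] at h1
    have h2 : ((SLZ n : Set (SLR n)) ∩ K) ⊆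
        (Subtype.val) '' ((SLZ n).subtype ⁻¹' Kᶜ)ᶜ := by
      rintro x ⟨hx, hxK⟩
      exact ⟨⟨x, hx⟩, by simpa using hxK, rfl⟩
    exact ((h1.image _).subset h2).subset Set.sdiff_subset
  refine ⟨K \ (((SLZ n : Set (SLR n)) ∩ K) \ {1}), ?_, ?_⟩
  · refine Filter.inter_mem hKn ?_
    exact hfin.isClosed.isOpen_compl.mem_nhds (by simp)
  · intro g hg hgS
    by_contra hne
    exact hg.2 ⟨⟨hgS, hg.1⟩, hne⟩

lemma discreteTopology_torusStabilizer (x : X n) : DiscreteTopology (torusStabilizer x) := by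
  obtain ⟨g, rfl⟩ := mk_surjective x
  obtain ⟨U, hU, hU1⟩ := discrete_SLZ (n := n)
  have hc : Continuous (fun u : Fin (n - 1) → ℝ => g * torus u * g⁻¹) :=
    (continuous_const.mul continuous_torus).mul continuous_const
  have h0 : g * torus (0 : Fin (n - 1) → ℝ) * g⁻¹ = 1 := by
    simp [torus_zero]
  have hV : (fun u : Fin (n - 1) → ℝ => g * torus u * g⁻¹) ⁻¹' U ∈ 𝓝 (0 : Fin (n - 1) → ℝ) :=
    hc.continuousAt (by rw [h0]; exact hU)
  obtain ⟨V, hVs, hVo, hV0⟩ := mem_nhds_iff.1 hV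
  have hV2 : ∀ u ∈ V, u ∈ torusStabilizer (X.mk g) → u = 0 := by
    intro u hu hus
    have h1 : X.mk (g * torus u) = X.mk g := hus
    obtain ⟨γ, hγ, h2⟩ := mk_eq_mk.1 h1
    have h3 : g * torus u * g⁻¹ = γ := by rw [h2, mul_inv_cancel_right]
    have h4 : g * torus u * g⁻¹ = 1 := hU1 _ (hVs hu) (by rw [h3]; exact hγ)
    have h5 : torus u = 1 := by
      rw [mul_inv_eq_one] at h4
      exact mul_eq_left.mp h4
    rw [← torus_zero] at h5
    exact torus_injective_near h5
  apply discreteTopology_of_isOpen_singleton_zero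
  rw [isOpen_induced_iff]
  refine ⟨V, hVo, ?_⟩
  ext u
  simp only [Set.mem_preimage, Set.mem_singleton_iff]
  constructor
  · intro h
    exact Subtype.ext (hV2 u h u.2)
  · rintro rfl
    exact hV0

end Vale.Agent.P007
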