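import Vale.Agent.P007.Obstruction

open MeasureTheory Matrix Topology Filter Set
open scoped nonZeroDivisors ENNReal Pointwise

namespace Vale.Agent.P007

lemma exists_fd {m : ℕ} (L : AddSubgroup (Fin m → ℝ)) (hd : DiscreteTopology L)
    (hs : Submodule.span ℝ (L : Set (Fin m → ℝ)) = ⊤) :
    ∃ F : Set (Fin m → ℝ), IsAddFundamentalDomain L F volume ∧ MeasurableSet F ∧
      Bornology.IsBounded F ∧ volume F ≠ 0 ∧ volume F ≠ ⊤ ∧ (∀ u, ∃ s ∈ L, s + u ∈ F) ∧
      ∀ u ∈ F, ∀ s ∈ L, s + u ∈ F → s = 0 := by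
  classical
  set M : Submodule ℤ (Fin m → ℝ) := AddSubgroup.toIntSubmodule L with hM
  have : DiscreteTopology M := hd
  have : IsZLattice ℝ M := ⟨hs⟩
  let b := IsZLattice.basis M
  let B := b.ofZLatticeBasis ℝ M
  have hspan : Submodule.span ℤ (Set.range B) = M := b.ofZLatticeBasis_span ℝ
  have hbdd := ZSpan.fundamentalDomain_isBounded B
  have huniq := fun x => ZSpan.exist_unique_vadd_mem_fundamentalDomain B x
  refine ⟨ZSpan.fundamentalDomain B, ?_, ZSpan.fundamentalDomain_measurableSet B, hbdd,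
    ZSpan.measure_fundamentalDomain_ne_zero B, hbdd.measure_lt_top.ne, ?_, ?_⟩
  · refine IsAddFundamentalDomain.mk'
      (ZSpan.fundamentalDomain_measurableSet B).nullMeasurableSet ?_
    intro x
    obtain ⟨v, hv, hv2⟩ := huniq x
    have hvL : (v : Fin m → ℝ) ∈ L := by
      have : (v : Fin m → ℝ) ∈ M := by rw [← hspan]; exact v.2
      exact this
    refine ⟨⟨v, hvL⟩, hv, ?_⟩
    intro y hy
    have hyM : (y : Fin m → ℝ) ∈ Submodule.span ℤ (Set.range B) := by rw [hspan]; exact y.2
    have h7 := hv2 ⟨y, hyM⟩ hy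
    apply Subtype.ext
    have h8 := congrArg Subtype.val h7
    exact h8
  · intro u
    obtain ⟨v, hv, -⟩ := huniq u
    have hvL : (v : Fin m → ℝ) ∈ L := by
      have : (v : Fin m → ℝ) ∈ M := by rw [← hspan]; exact v.2
      exact this
    exact ⟨v, hvL, hv⟩
  · intro u hu s hs hsu
    obtain ⟨v, -, hv2⟩ := huniq u
    have hsM : s ∈ Submodule.span ℤ (Set.range B) := by rw [hspan]; exact hs
    have h1 := hv2 ⟨s, hsM⟩ hsu
    have h2 := hv2 0 (by
      change (0 : Submodule.span ℤ (Set.range B)) +ᵥ u ∈ ZSpan.fundamentalDomain B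
      rw [zero_vadd]; exact hu)
    rw [← h2] at h1
    exact congrArg Subtype.val h1

variable {n : ℕ}

lemma continuous_fullCoord : Continuous (fullCoord (n := n)) := by
  apply continuous_pi
  intro j
  unfold fullCoord
  by_cases h : (j : ℕ) < n - 1
  · simp only [h, dif_pos]
    exact continuous_apply _
  · simp only [h, dif_neg, not_false_eq_true]
    exact (continuous_finsetSum _ fun i _ => continuous_apply i).neg

lemma continuous_torus : Continuous (torus (n := n)) := by
  apply Continuous.subtype_mk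
  apply Continuous.matrix_diagonal
  apply continuous_pi
  intro j
  exact Real.continuous_exp.comp ((continuous_apply j).comp continuous_fullCoord)

lemma continuous_orbitMap (x : X n) :
    Continuous (fun u : Fin (n - 1) → ℝ => x.rmul (torus u)) := by
  obtain ⟨g, rfl⟩ := mk_surjective x
  change Continuous (fun u : Fin (n - 1) → ℝ => X.mk (g * torus u))
  exact continuous_mk.comp (continuous_const.mul continuous_torus)

lemma torus_comm (u v : Fin (n - 1) → ℝ) : torus (n := n) u * torus v = torus v * torus u := by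
  rw [← torus_add, ← torus_add, add_comm]

lemma orbitMap_add (x : X n) (u v : Fin (n - 1) → ℝ) :
    x.rmul (torus (u + v)) = (x.rmul (torus u)).rmul (torus v) := by
  rw [torus_add, X.rmul_mul]

lemma orbitMap_stab {x : X n} {s : Fin (n - 1) → ℝ} (hs : s ∈ torusStabilizer x)
    (u : Fin (n - 1) → ℝ) : x.rmul (torus (s + u)) = x.rmul (torus u) := by
  rw [orbitMap_add]
  congr 1

lemma mem_torusOrbit_self (x : X n) : x ∈ torusOrbit x :=
  ⟨0, by change x.rmul (torus 0) = x; rw [torus_zero, X.rmul_one]⟩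

lemma isCompact_torusOrbit {x : X n} {F : Set (Fin (n - 1) → ℝ)} (hF : Bornology.IsBounded F)
    (hcov : ∀ u, ∃ s ∈ torusStabilizer x, s + u ∈ F) : IsCompact (torusOrbit x) := by
  have h1 : IsCompact (closure F) := hF.isCompact_closure
  have h2 : torusOrbit x = (fun u : Fin (n - 1) → ℝ => x.rmul (torus u)) '' closure F := by
    apply Set.Subset.antisymm
    · rintro _ ⟨u, rfl⟩
      obtain ⟨s, hs, hsu⟩ := hcov u
      exact ⟨s + u, subset_closure hsu, orbitMap_stab hs u⟩
    · rintro _ ⟨u, -, rfl⟩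
      exact ⟨u, rfl⟩
  rw [h2]
  exact h1.image (continuous_orbitMap x)

lemma exists_orbitProbability {x : X n} {F : Set (Fin (n - 1) → ℝ)}
    (hF : IsAddFundamentalDomain (torusStabilizer x) F volume) 
    [Countable (torusStabilizer x)]
    (h0 : volume F ≠ 0) (h1 : volume F ≠ ⊤) (hc : IsCompact (torusOrbit x)) :
    ∃ ν : Measure (X n), IsOrbitProbability (torusOrbit x) ν := by
  set φ : (Fin (n - 1) → ℝ) → X n := fun u => x.rmul (torus u) with hφ
  have hφc : Continuous φ := continuous_orbitMap x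
  refine ⟨(volume F)⁻¹ • (volume.restrict F).map φ, ?_, ?_, ?_⟩
  · constructor
    rw [Measure.smul_apply, Measure.map_apply hφc.measurable MeasurableSet.univ,
      Set.preimage_univ, Measure.restrict_apply MeasurableSet.univ, Set.univ_inter, smul_eq_mul,
      ENNReal.inv_mul_cancel h0 h1]
  · rw [Measure.smul_apply, Measure.map_apply hφc.measurable hc.measurableSet.compl]
    have : φ ⁻¹' (torusOrbit x)ᶜ = ∅ := by
      ext u
      simp only [Set.mem_preimage, Set.mem_compl_iff, Set.mem_empty_iff_false, iff_false,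
        not_not]
      exact ⟨u, rfl⟩
    rw [this, measure_empty, smul_zero]
  · intro v' B hB
    rw [translate_eq]
    obtain ⟨v, hv⟩ : ∃ v, (torus v' : SLR n)⁻¹ = torus v := by
      refine ⟨-v', ?_⟩
      rw [inv_eq_iff_mul_eq_one, ← torus_add, add_neg_cancel, torus_zero]
    rw [hv, Measure.smul_apply, Measure.smul_apply,
      Measure.map_apply hφc.measurable ((continuous_rmul _).measurable hB),
      ← Set.preimage_comp]
    congr 1
    have hm1 : Measurable ((fun y : X n => y.rmul (torus v)) ∘ φ) :=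
      ((continuous_rmul _).comp hφc).measurable
    rw [Measure.map_apply hφc.measurable hB,
      Measure.restrict_apply (hm1 hB), Measure.restrict_apply (hφc.measurable hB)]
    have e1 : ((fun y : X n => y.rmul (torus v)) ∘ φ) ⁻¹' B = (fun u => u + v) ⁻¹' (φ ⁻¹' B) := by
      ext u
      simp only [Set.mem_preimage, Function.comp, hφ]
      rw [orbitMap_add]
    rw [e1]
    have hF2 : IsAddFundamentalDomain (torusStabilizer x) ((fun u => u - v) ⁻¹' F) volume := by
      have h3 : ((fun u : Fin (n - 1) → ℝ => u - v) ⁻¹' F) = v +ᵥ F := by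
        ext u
        simp [Set.mem_vadd_set_iff_neg_vadd_mem, sub_eq_neg_add]
      rw [h3]
      exact hF.vadd_of_comm v
    have hinv : ∀ g : torusStabilizer x, (fun u => g +ᵥ u) ⁻¹' (φ ⁻¹' B) = φ ⁻¹' B := by
      intro g
      ext u
      simp only [Set.mem_preimage, hφ]
      have : x.rmul (torus (g +ᵥ u)) = x.rmul (torus u) := orbitMap_stab g.2 u
      rw [this]
    have h5 := hF2.measure_set_eq hF (hφc.measurable hB) hinv
    rw [← h5]
    have h6 : (fun u => u + v) ⁻¹' (φ ⁻¹' B) ∩ F =
        (fun u => u + v) ⁻¹' (φ ⁻¹' B ∩ (fun u => u - v) ⁻¹' F) := by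
      ext u
      simp
    rw [h6]
    exact measure_preimage_add_right volume v _

lemma rmul_torus_eq_iff (x : X n) (u v : Fin (n - 1) → ℝ) :
    x.rmul (torus u) = x.rmul (torus v) ↔ u - v ∈ torusStabilizer x := by
  change _ ↔ x.rmul (torus (u - v)) = x
  have e : u = (u - v) + v := by abel
  constructor
  · intro h
    conv_lhs at h => rw [e, orbitMap_add]
    have h2 := congrArg (fun z : X n => z.rmul (torus (-v))) h
    have h1 : ∀ z : X n, (z.rmul (torus v)).rmul (torus (-v)) = z := by
      intro z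
      rw [← orbitMap_add, add_neg_cancel, torus_zero, X.rmul_one]
    change ((x.rmul (torus (u - v))).rmul (torus v)).rmul (torus (-v)) =
      (x.rmul (torus v)).rmul (torus (-v)) at h2
    rwa [h1, h1] at h2
  · intro h
    conv_lhs => rw [e, orbitMap_add, h]

/-- All the properties of an orbit needed for a packet measure. -/
lemma orbit_properties {x : X n} (hd : DiscreteTopology (torusStabilizer x))
    (hs : Submodule.span ℝ (torusStabilizer x : Set (Fin (n - 1) → ℝ)) = ⊤) :
    IsCompact (torusOrbit x) ∧ (∃ v, v ≠ 0 ∧ v ≠ ⊤ ∧ IsVolume (torusOrbit x) v) ∧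
      ∃ ν, IsOrbitProbability (torusOrbit x) ν := by
  obtain ⟨F, hF, hFm, hFb, h0, h1, hcov, hinj⟩ := exists_fd _ hd hs
  have hc := isCompact_torusOrbit hFb hcov
  have : Countable (torusStabilizer x) := countable_of_Lindelof_of_discrete
  refine ⟨hc, ⟨volume F, h0, h1, ?_⟩, exists_orbitProbability hF h0 h1 hc⟩
  obtain ⟨g, rfl⟩ := mk_surjective x
  refine ⟨g, F, rfl, hFm, ⟨?_, ?_, ?_⟩, rfl⟩
  · intro u _
    exact ⟨u, rfl⟩
  · intro u hu v hv huv
    have h2 : (X.mk g).rmul (torus u) = (X.mk g).rmul (torus v) := huv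
    rw [rmul_torus_eq_iff] at h2
    have h3 := hinj v hv (u - v) h2 (by rw [sub_add_cancel]; exact hu)
    exact sub_eq_zero.1 h3
  · rintro _ ⟨u, rfl⟩
    obtain ⟨s, hs, hsu⟩ := hcov u
    exact ⟨s + u, hsu, orbitMap_stab hs u⟩

lemma torusStabilizer_eq_of_orbit {x y : X n} (h : torusOrbit x = torusOrbit y) :
    torusStabilizer x = torusStabilizer y := by
  have hx : x ∈ torusOrbit y := by rw [← h]; exact mem_torusOrbit_self x
  obtain ⟨v, rfl⟩ := hx
  ext u
  change (y.rmul (torus v)).rmul (torus u) = y.rmul (torus v) ↔ y.rmul (torus u) = y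
  rw [← orbitMap_add, add_comm, orbitMap_add]
  constructor
  · intro e
    have h1 : ∀ z : X n, (z.rmul (torus v)).rmul (torus (-v)) = z := by
      intro z
      rw [← orbitMap_add, add_neg_cancel, torus_zero, X.rmul_one]
    have h2 := congrArg (fun z : X n => z.rmul (torus (-v))) e
    change ((y.rmul (torus u)).rmul (torus v)).rmul (torus (-v)) =
      (y.rmul (torus v)).rmul (torus (-v)) at h2
    rwa [h1, h1] at h2
  · intro e
    rw [e]

lemma isVolume_fd {S : Set (X n)} {v : ℝ≥0∞} (h : IsVolume S v) :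
    ∃ (x : X n) (F : Set (Fin (n - 1) → ℝ)), S = torusOrbit x ∧
      IsAddFundamentalDomain (torusStabilizer x) F volume ∧ v = volume F := by
  obtain ⟨g, F, hS, hFm, hbij, hv⟩ := h
  refine ⟨X.mk g, F, hS, ?_, hv⟩
  refine IsAddFundamentalDomain.mk' hFm.nullMeasurableSet ?_
  intro u
  have h1 : (X.mk g).rmul (torus u) ∈ S := by rw [hS]; exact ⟨u, rfl⟩
  obtain ⟨w, hw, hwu⟩ := hbij.surjOn h1
  have hwu' : (X.mk g).rmul (torus w) = (X.mk g).rmul (torus u) := hwu
  have h2 := (rmul_torus_eq_iff _ _ _).1 hwu'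
  refine ⟨⟨w - u, h2⟩, ?_, ?_⟩
  · change (w - u) + u ∈ F
    rw [sub_add_cancel]
    exact hw
  · rintro ⟨s, hs⟩ hsu
    have hsu' : s + u ∈ F := hsu
    have h3 : (X.mk g).rmul (torus (s + u)) = (X.mk g).rmul (torus w) := by
      rw [orbitMap_stab hs u, hwu']
    have h4 := hbij.injOn hsu' hw h3
    apply Subtype.ext
    change s = w - u
    rw [← h4]
    abel

end Vale.Agent.P007
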