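import Vale.Agent.P007.Top

open MeasureTheory Matrix Topology Filter Set
open scoped nonZeroDivisors ENNReal

namespace Vale.Agent.P007

variable {n : ℕ}

/-- Matrices `g` whose lattice is stable under `diag d`. -/
def badSet (d : Fin n → ℝ) : Set (SLR n) :=
  {g | ∀ i j, ((g : Matrix (Fin n) (Fin n) ℝ) * Matrix.diagonal d *
    ((g⁻¹ : SLR n) : Matrix (Fin n) (Fin n) ℝ)) i j ∈ Set.range ((↑) : ℤ → ℝ)}

lemma isClosed_badSet (d : Fin n → ℝ) : IsClosed (badSet d) := by
  have : badSet d = ⋂ i, ⋂ j, (fun g : SLR n => ((g : Matrix (Fin n) (Fin n) ℝ) *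
      Matrix.diagonal d * ((g⁻¹ : SLR n) : Matrix (Fin n) (Fin n) ℝ)) i j) ⁻¹'
        Set.range ((↑) : ℤ → ℝ) := by
    ext g
    simp [badSet]
  rw [this]
  refine isClosed_iInter fun i => isClosed_iInter fun j => ?_
  refine IsClosed.preimage ?_ Int.isClosedEmbedding_coe_real.isClosed_range
  have h1 : Continuous (fun g : SLR n => (g : Matrix (Fin n) (Fin n) ℝ)) := continuous_subtype_val
  have h2 : Continuous (fun g : SLR n => ((g⁻¹ : SLR n) : Matrix (Fin n) (Fin n) ℝ)) :=
    continuous_subtype_val.comp continuous_inv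
  exact ((h1.mul continuous_const).mul h2).matrix_elem i j

/-- Matrices with integer entries. -/
def IsInt (M : Matrix (Fin n) (Fin n) ℝ) : Prop := ∃ A : Matrix (Fin n) (Fin n) ℤ,
  M = A.map (Int.castRingHom ℝ)

lemma mem_badSet_iff (d : Fin n → ℝ) (g : SLR n) : g ∈ badSet d ↔
    IsInt ((g : Matrix (Fin n) (Fin n) ℝ) * Matrix.diagonal d *
      ((g⁻¹ : SLR n) : Matrix (Fin n) (Fin n) ℝ)) := by
  constructor
  · intro h
    choose A hA using h
    exact ⟨Matrix.of A, by ext i j; exact (hA i j).symm⟩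
  · rintro ⟨A, hA⟩ i j
    rw [hA]
    exact ⟨A i j, by simp⟩

lemma IsInt.mul {M N : Matrix (Fin n) (Fin n) ℝ} (hM : IsInt M) (hN : IsInt N) :
    IsInt (M * N) := by
  obtain ⟨A, rfl⟩ := hM
  obtain ⟨B, rfl⟩ := hN
  exact ⟨A * B, by rw [Matrix.map_mul]⟩

lemma isInt_of_mem_SLZ {γ : SLR n} (h : γ ∈ SLZ n) : IsInt (γ : Matrix (Fin n) (Fin n) ℝ) := by
  obtain ⟨a, rfl⟩ := h
  exact ⟨a, rfl⟩

lemma badSet_left {d : Fin n → ℝ} {g γ : SLR n} (hγ : γ ∈ SLZ n) (hg : g ∈ badSet d) :
    γ * g ∈ badSet d := by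
  rw [mem_badSet_iff] at hg ⊢
  have h1 := isInt_of_mem_SLZ hγ
  have h2 := isInt_of_mem_SLZ ((SLZ n).inv_mem hγ)
  have := (h1.mul hg).mul h2
  rw [_root_.mul_inv_rev, Matrix.SpecialLinearGroup.coe_mul, Matrix.SpecialLinearGroup.coe_mul]
  simpa [mul_assoc] using this

lemma badSet_torus {d : Fin n → ℝ} {g : SLR n} (u : Fin (n - 1) → ℝ) (hg : g ∈ badSet d) :
    g * torus u ∈ badSet d := by
  rw [mem_badSet_iff] at hg ⊢
  have h1 : (torus u : Matrix (Fin n) (Fin n) ℝ) * Matrix.diagonal d *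
      (((torus u)⁻¹ : SLR n) : Matrix (Fin n) (Fin n) ℝ) = Matrix.diagonal d := by
    have hc : (torus u : Matrix (Fin n) (Fin n) ℝ) * Matrix.diagonal d =
        Matrix.diagonal d * (torus u : Matrix (Fin n) (Fin n) ℝ) := by
      simp only [torus, Matrix.diagonal_mul_diagonal]
      congr 1
      funext i
      ring
    rw [hc, mul_assoc, ← Matrix.SpecialLinearGroup.coe_mul, mul_inv_cancel,
      Matrix.SpecialLinearGroup.coe_one, mul_one]
  have h2 : ((g * torus u : SLR n) : Matrix (Fin n) (Fin n) ℝ) * Matrix.diagonal d *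
      (((g * torus u)⁻¹ : SLR n) : Matrix (Fin n) (Fin n) ℝ) =
      (g : Matrix (Fin n) (Fin n) ℝ) * Matrix.diagonal d *
      ((g⁻¹ : SLR n) : Matrix (Fin n) (Fin n) ℝ) := by
    rw [_root_.mul_inv_rev, Matrix.SpecialLinearGroup.coe_mul, Matrix.SpecialLinearGroup.coe_mul]
    calc _ = (g : Matrix (Fin n) (Fin n) ℝ) * ((torus u : Matrix (Fin n) (Fin n) ℝ) *
          Matrix.diagonal d * (((torus u)⁻¹ : SLR n) : Matrix (Fin n) (Fin n) ℝ)) *
          ((g⁻¹ : SLR n) : Matrix (Fin n) (Fin n) ℝ) := by simp only [mul_assoc]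
      _ = _ := by rw [h1]
  rw [h2]
  exact hg

/-- The set of lattices stable under `diag d`. -/
def badX (d : Fin n → ℝ) : Set (X n) := X.mk '' badSet d

lemma mk_mem_badX {d : Fin n → ℝ} {g : SLR n} : X.mk g ∈ badX d ↔ g ∈ badSet d := by
  constructor
  · rintro ⟨h, hh, e⟩
    obtain ⟨γ, hγ, rfl⟩ := mk_eq_mk.1 e.symm
    exact badSet_left hγ hh
  · intro h
    exact ⟨g, h, rfl⟩

lemma isClosed_badX (d : Fin n → ℝ) : IsClosed (badX d) := by
  rw [← (isOpenQuotientMap_mk (n := n)).isQuotientMap.isClosed_preimage]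
  have : X.mk ⁻¹' badX d = badSet d := by
    ext g; exact mk_mem_badX
  rw [this]
  exact isClosed_badSet d

lemma torusOrbit_subset_badX {d : Fin n → ℝ} {x : X n} (hx : x ∈ badX d) :
    torusOrbit x ⊆ badX d := by
  rintro _ ⟨u, rfl⟩
  obtain ⟨g, hg, rfl⟩ := hx
  exact ⟨g * torus u, badSet_torus u hg, rfl⟩

/-- there is a lattice which is not stable under a nonscalar `diag d`. -/
lemma exists_not_mem_badSet {d : Fin n → ℝ} {j k : Fin n} (hjk : d j ≠ d k) :
    ∃ g : SLR n, g ∉ badSet d := by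
  have hne : j ≠ k := by rintro rfl; exact hjk rfl
  set t : ℝ := 1 / (2 * (d k - d j)) with ht
  have hd : d k - d j ≠ 0 := sub_ne_zero.2 (Ne.symm hjk)
  have htt : t * (d k - d j) = 1 / 2 := by rw [ht]; field_simp
  let g1 : SLR n := ⟨Matrix.transvection j k t, Matrix.det_transvection_of_ne j k hne t⟩
  let g2 : SLR n := ⟨Matrix.transvection j k (-t), Matrix.det_transvection_of_ne j k hne (-t)⟩
  refine ⟨g1, ?_⟩
  intro h
  have hinv : g1⁻¹ = g2 := by
    rw [inv_eq_iff_mul_eq_one]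
    apply Subtype.ext
    rw [Matrix.SpecialLinearGroup.coe_mul, Matrix.SpecialLinearGroup.coe_one]
    change Matrix.transvection j k t * Matrix.transvection j k (-t) = 1
    rw [Matrix.transvection_mul_transvection_same _ _ hne, add_neg_cancel,
      Matrix.transvection_zero]
  have h' := h j k
  rw [hinv] at h'
  obtain ⟨z, hz⟩ := h'
  have hval : (Matrix.transvection j k t * Matrix.diagonal d * Matrix.transvection j k (-t)) j k
      = t * (d k - d j) := by
    simp only [Matrix.transvection, add_mul, one_mul, mul_add, mul_one, Matrix.add_apply]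
    simp [Matrix.diagonal_apply, Matrix.mul_apply, Matrix.single_apply, hne, Ne.symm hne,
      Finset.sum_ite_eq]
    ring
  change (z : ℝ) = (Matrix.transvection j k t * Matrix.diagonal d *
    Matrix.transvection j k (-t)) j k at hz
  rw [hval, htt] at hz
  have h2 : (2 * z : ℤ) = 1 := by
    have : (2 * (z : ℝ)) = 1 := by rw [hz]; norm_num
    exact_mod_cast this
  omega

/-- A test function vanishing on `badX d`. -/
lemma exists_test {d : Fin n → ℝ} {j k : Fin n} (hjk : d j ≠ d k) :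
    ∃ f : X n → ℝ, Continuous f ∧ HasCompactSupport f ∧ (∀ x, 0 ≤ f x) ∧
      (∀ x ∈ badX d, f x = 0) ∧ ∃ x, 0 < f x := by
  obtain ⟨g, hg⟩ := exists_not_mem_badSet hjk
  have hx : X.mk g ∉ badX d := fun h => hg (mk_mem_badX.1 h)
  have hU : IsOpen (badX d)ᶜ := (isClosed_badX d).isOpen_compl
  obtain ⟨f, hf1, hf0, hfc, hfr⟩ := exists_continuous_one_zero_of_isCompact
    (s := {X.mk g}) (t := badX d) isCompact_singleton (isClosed_badX d)
    (by rwa [Set.disjoint_singleton_left])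
  refine ⟨f, f.continuous, hfc, fun x => (hfr x).1, fun x hx => hf0 hx, X.mk g, ?_⟩
  have := hf1 (Set.mem_singleton (X.mk g))
  rw [this]
  exact one_pos

lemma integral_pos_of_invariant {f : X n → ℝ} (hf : Continuous f) (hfc : HasCompactSupport f)
    (hf0 : ∀ x, 0 ≤ f x) {x₀ : X n} (hx : 0 < f x₀) {m : Measure (X n)}
    (hm : IsInvariantProbability m) : 0 < ∫ x, f x ∂m := by
  obtain ⟨hprob, hinv⟩ := hm
  have hint : Integrable f m := hf.integrable_of_hasCompactSupport hfc
  rw [integral_pos_iff_support_of_nonneg hf0 hint]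
  have hU : IsOpen (Function.support f) := hf.isOpen_support
  by_contra hcon
  have h0 : m (Function.support f) = 0 := by
    simpa using hcon
  -- translates cover
  have hcov : ∀ x : X n, ∃ h : SLR n, x.rmul h ∈ Function.support f := by
    intro x
    obtain ⟨g, rfl⟩ := mk_surjective x
    obtain ⟨g₀, rfl⟩ := mk_surjective x₀
    refine ⟨g⁻¹ * g₀, ?_⟩
    rw [rmul_mk, mul_inv_cancel_left]
    exact ne_of_gt hx
  have hpre : ∀ h : SLR n, m ((fun x : X n => x.rmul h) ⁻¹' Function.support f) = 0 := by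
    intro h
    have h1 := hinv h⁻¹ _ hU.measurableSet
    rw [translate_eq, inv_inv, h0] at h1
    exact h1
  obtain ⟨T, hT, hTU⟩ := TopologicalSpace.isOpen_iUnion_countable
    (fun h : SLR n => (fun x : X n => x.rmul h) ⁻¹' Function.support f)
    (fun h => hU.preimage (continuous_rmul h))
  have huniv : (⋃ h : SLR n, (fun x : X n => x.rmul h) ⁻¹' Function.support f) = Set.univ := by
    ext x
    simp only [Set.mem_iUnion, Set.mem_univ, iff_true]
    exact hcov x
  have hz : m (Set.univ : Set (X n)) = 0 := by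
    rw [← huniv, ← hTU]
    exact (measure_biUnion_null_iff hT).2 fun h _ => hpre h
  rw [measure_univ] at hz
  exact one_ne_zero hz

section packet

variable {K : Type} [Field K] [NumberField K] (σ : Fin n ≃ (K →+* ℝ)) (O : Subring K)

lemma rowLattice_subset_iff (g : SLR n) (d : Fin n → ℝ)
    (h : ∀ v ∈ rowLattice g, (fun j => v j * d j) ∈ rowLattice g) : g ∈ badSet d := by
  rw [mem_badSet_iff]
  have hrow : ∀ i : Fin n, ∃ z : Fin n → ℤ,
      (fun j => (g : Matrix (Fin n) (Fin n) ℝ) i j * d j) =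
        (fun i => (z i : ℝ)) ᵥ* (g : Matrix (Fin n) (Fin n) ℝ) := by
    intro i
    have h1 : (fun j => (g : Matrix (Fin n) (Fin n) ℝ) i j) ∈ rowLattice g := by
      refine ⟨Pi.single i 1, ?_⟩
      have : (fun k => ((Pi.single i 1 : Fin n → ℤ) k : ℝ)) = Pi.single i 1 := by
        funext k
        by_cases hk : k = i
        · subst hk; simp
        · simp [hk]
      rw [this, Matrix.single_one_vecMul]
      rfl
    exact h _ h1
  choose z hz using hrow
  refine ⟨Matrix.of z, ?_⟩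
  have h2 : (g : Matrix (Fin n) (Fin n) ℝ) * Matrix.diagonal d =
      (Matrix.of z).map (Int.castRingHom ℝ) * (g : Matrix (Fin n) (Fin n) ℝ) := by
    ext i j
    rw [Matrix.mul_diagonal]
    have := congrFun (hz i) j
    rw [this]
    simp [Matrix.vecMul, Matrix.mul_apply, dotProduct]
  rw [h2, mul_assoc, ← Matrix.SpecialLinearGroup.coe_mul, mul_inv_cancel,
    Matrix.SpecialLinearGroup.coe_one, mul_one]

lemma packetPoint_mem_badX {x : X n} (hx : IsFracPoint σ O x) {a : K} (ha : a ∈ O) :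
    x ∈ badX (fun j => σ j a) := by
  obtain ⟨I, w, c, g, hI, hc, rfl, hg⟩ := hx
  rw [mk_mem_badX]
  apply rowLattice_subset_iff
  intro v hv
  rw [hg] at hv ⊢
  obtain ⟨α, hα, rfl⟩ := hv
  refine ⟨a * α, hI.smul a ha α hα, ?_⟩
  funext j
  simp only [map_mul]
  ring

end packet

section packet2

variable {K : Type} [Field K] [NumberField K] {σ : Fin n ≃ (K →+* ℝ)} {O : Subring K}

lemma isFrac_of_fractional {I : AddSubgroup K} (h : IsFractional O I) : IsFrac O I :=
  ⟨h.1, h.2.1, h.2.2⟩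

lemma packet_isFracPoint {S : Set (X n)} (hS : S ∈ packet σ O) :
    ∃ x, IsFracPoint σ O x ∧ S = torusOrbit x := by
  obtain ⟨I, w, c, g, hI, hc, hg, rfl⟩ := hS
  refine ⟨X.mk g, ⟨I, w, c, g, isFrac_of_fractional hI.1, hc, rfl, ?_⟩, rfl⟩
  rw [hg]
  ext v
  constructor
  · rintro ⟨a, ha, rfl⟩
    exact ⟨a, ha, by funext j; ring⟩
  · rintro ⟨a, ha, rfl⟩
    exact ⟨a, ha, by funext j; ring⟩

lemma packetMeasure_compl_badX {μ : Measure (X n)} (hμ : IsPacketMeasure σ O μ) {a : K}
    (ha : a ∈ O) : μ (badX (fun j => σ j a))ᶜ = 0 := by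
  obtain ⟨P, vol, ν, hP, hS, hμ⟩ := hμ
  have h1 : ∀ S ∈ P, ν S (badX (fun j => σ j a))ᶜ = 0 := by
    intro S hSP
    have h2 : S ∈ packet σ O := by rw [← hP]; exact hSP
    obtain ⟨x, hx, rfl⟩ := packet_isFracPoint h2
    have h3 := torusOrbit_subset_badX (packetPoint_mem_badX σ O hx ha)
    exact measure_mono_null (Set.compl_subset_compl.2 h3) (hS _ hSP).2.2.2.1
  rw [hμ _ (isClosed_badX _).measurableSet.compl]
  have : ∑ S ∈ P, vol S * ν S (badX (fun j => σ j a))ᶜ = 0 := by
    apply Finset.sum_eq_zero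
    intro S hSP
    rw [h1 S hSP, mul_zero]
  rw [this, ENNReal.zero_div]

lemma integral_packetMeasure_eq_zero {μ : Measure (X n)} (hμ : IsPacketMeasure σ O μ) {a : K}
    (ha : a ∈ O) {f : X n → ℝ} (hf : ∀ x ∈ badX (fun j => σ j a), f x = 0) :
    ∫ x, f x ∂μ = 0 := by
  apply integral_eq_zero_of_ae
  have := packetMeasure_compl_badX hμ ha
  rw [Filter.EventuallyEq, ae_iff]
  refine measure_mono_null ?_ this
  intro x hx hx2
  exact hx (hf x hx2)

end packet2

end Vale.Agent.P007
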