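import Vale.Agent.P007.Exist

open MeasureTheory Matrix Topology Filter Set NumberField
open scoped nonZeroDivisors ENNReal Pointwise

namespace Vale.Agent.P007

variable {K : Type} [Field K] [NumberField K]

/-- the order `ℤ[a] + (i+1) 𝓞_K`. -/
def ordSeq (a : K) (ha : IsIntegral ℤ a) (i : ℕ) : Subring K where
  carrier := {x | ∃ y ∈ Algebra.adjoin ℤ ({a} : Set K), ∃ z ∈ integralClosure ℤ K,
    x = y + ((i : K) + 1) * z}
  one_mem' := ⟨1, one_mem _, 0, zero_mem _, by simp⟩
  zero_mem' := ⟨0, zero_mem _, 0, zero_mem _, by simp⟩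
  neg_mem' := by
    rintro _ ⟨y, hy, z, hz, rfl⟩
    exact ⟨-y, neg_mem hy, -z, neg_mem hz, by ring⟩
  add_mem' := by
    rintro _ _ ⟨y, hy, z, hz, rfl⟩ ⟨y', hy', z', hz', rfl⟩
    exact ⟨y + y', add_mem hy hy', z + z', add_mem hz hz', by ring⟩
  mul_mem' := by
    rintro _ _ ⟨y, hy, z, hz, rfl⟩ ⟨y', hy', z', hz', rfl⟩
    have hle : Algebra.adjoin ℤ ({a} : Set K) ≤ integralClosure ℤ K := by
      rw [Algebra.adjoin_le_iff]
      intro x hx
      rw [Set.mem_singleton_iff] at hx
      rw [hx]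
      exact ha
    refine ⟨y * y', mul_mem hy hy', y * z' + y' * z + ((i : K) + 1) * (z * z'), ?_, by ring⟩
    have h1 : ((i : K) + 1) ∈ integralClosure ℤ K := by
      have : ((i : K) + 1) = ((i + 1 : ℕ) : K) := by push_cast; ring
      rw [this]
      exact natCast_mem _ _
    exact add_mem (add_mem (mul_mem (hle hy) hz') (mul_mem (hle hy') hz))
      (mul_mem h1 (mul_mem hz hz'))

lemma self_mem_ordSeq (a : K) (ha : IsIntegral ℤ a) (i : ℕ) : a ∈ ordSeq a ha i :=
  ⟨a, Algebra.subset_adjoin rfl, 0, zero_mem _, by simp⟩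

lemma adjoin_le_integralClosure' (a : K) (ha : IsIntegral ℤ a) :
    Algebra.adjoin ℤ ({a} : Set K) ≤ integralClosure ℤ K := by
  rw [Algebra.adjoin_le_iff]
  intro x hx
  rw [Set.mem_singleton_iff] at hx
  rw [hx]
  exact ha

lemma isOrder_ordSeq (a : K) (ha : IsIntegral ℤ a) (i : ℕ) : IsOrder (ordSeq a ha i) := by
  have hi : ((i : K) + 1) ∈ integralClosure ℤ K := by
    have : ((i : K) + 1) = ((i + 1 : ℕ) : K) := by push_cast; ring
    rw [this]
    exact natCast_mem _ _
  constructor
  · rintro _ ⟨y, hy, z, hz, rfl⟩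
    exact add_mem (adjoin_le_integralClosure' a ha hy) (mul_mem hi hz)
  · rw [eq_top_iff]
    intro x _
    have hx : IsAlgebraic ℤ x := (IsFractionRing.isAlgebraic_iff ℤ ℚ K).2
      (Algebra.IsAlgebraic.isAlgebraic x)
    obtain ⟨y, hy0, hy⟩ := hx.exists_integral_multiple
    have hi0 : ((i : ℚ) + 1) ≠ 0 := by positivity
    have hy0' : (y : ℚ) ≠ 0 := by exact_mod_cast hy0
    have hmem : ((i : K) + 1) * (y • x) ∈ ordSeq a ha i :=
      ⟨0, zero_mem _, y • x, hy, by ring⟩
    have hx2 : x = (((i : ℚ) + 1) * (y : ℚ))⁻¹ • (((i : K) + 1) * (y • x)) := by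
      rw [Algebra.smul_def, zsmul_eq_mul]
      have h1 : ((i : K) + 1) ≠ 0 := by
        have : ((i : K) + 1) = ((i + 1 : ℕ) : K) := by push_cast; ring
        rw [this]
        exact_mod_cast Nat.succ_ne_zero i
      have h2 : (y : K) ≠ 0 := by exact_mod_cast hy0
      rw [map_inv₀, map_mul, map_add, map_one, map_natCast, map_intCast]
      field_simp
    rw [hx2]
    exact Submodule.smul_mem _ _ (Submodule.subset_span hmem)

/-- An integer valued functional killing `ℤ[a]`. -/
lemma exists_functional (a : K) (h : IntermediateField.adjoin ℚ ({a} : Set K) ≠ ⊤) :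
    ∃ (f : K →ₗ[ℚ] ℚ) (s : K), IsIntegral ℤ s ∧ f s ≠ 0 ∧
      (∀ y ∈ Algebra.adjoin ℤ ({a} : Set K), f y = 0) ∧
      ∀ z : K, IsIntegral ℤ z → ∃ m : ℤ, f z = m := by
  classical
  set V : Submodule ℚ K := (IntermediateField.adjoin ℚ ({a} : Set K)).toSubalgebra.toSubmodule
    with hV
  have hVtop : V < ⊤ := by
    rw [lt_top_iff_ne_top]
    intro hc
    apply h
    rw [← top_le_iff]
    intro x _
    have : x ∈ V := by rw [hc]; trivial
    exact this
  obtain ⟨f, hf0, hf⟩ := Submodule.exists_le_ker_of_lt_top V hVtop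
  have hfa : ∀ y ∈ Algebra.adjoin ℤ ({a} : Set K), f y = 0 := by
    intro y hy
    have h1 : y ∈ IntermediateField.adjoin ℚ ({a} : Set K) := by
      induction hy using Algebra.adjoin_induction with
      | mem x hx =>
        exact IntermediateField.subset_adjoin _ _ hx
      | algebraMap r => exact intCast_mem _ r
      | add x y _ _ hx hy => exact add_mem hx hy
      | mul x y _ _ hx hy => exact mul_mem hx hy
    exact hf h1
  let b := integralBasis K
  -- common denominator
  let D : ℕ := ∏ i, (f (b i)).den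
  have hD : 0 < D := Finset.prod_pos fun i _ => (f (b i)).den_pos
  obtain ⟨i₀, hi₀⟩ : ∃ i, f (b i) ≠ 0 := by
    by_contra hcon
    push Not at hcon
    exact hf0 (b.ext fun i => by rw [hcon i, LinearMap.zero_apply])
  refine ⟨(D : ℚ) • f, b i₀, ?_, ?_, ?_, ?_⟩
  · have : b i₀ = algebraMap (𝓞 K) K (RingOfIntegers.basis K i₀) := integralBasis_apply K i₀
    rw [this]
    exact RingOfIntegers.isIntegral_coe _
  · rw [LinearMap.smul_apply, smul_eq_mul]
    exact mul_ne_zero (by exact_mod_cast hD.ne') hi₀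
  · intro y hy
    rw [LinearMap.smul_apply, hfa y hy, smul_zero]
  · intro z hz
    have h1 : ∀ i, ∃ m : ℤ, (D : ℚ) * f (b i) = m := by
      intro i
      refine ⟨(∏ j ∈ Finset.univ.erase i, ((f (b j)).den : ℤ)) * (f (b i)).num, ?_⟩
      have h2 : D = (f (b i)).den * ∏ j ∈ Finset.univ.erase i, (f (b j)).den :=
        (Finset.mul_prod_erase Finset.univ (fun j => (f (b j)).den) (Finset.mem_univ i)).symm
      have h3 : ((f (b i)).den : ℚ) * f (b i) = (f (b i)).num := Rat.den_mul_eq_num _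
      rw [h2]
      push_cast
      rw [← h3]
      ring
    choose m hm using h1
    let z' : 𝓞 K := ⟨z, hz⟩
    have h4 : z = ∑ i, ((RingOfIntegers.basis K).repr z' i : ℚ) • b i := by
      have h5 := b.sum_repr z
      conv_lhs => rw [← h5]
      apply Finset.sum_congr rfl
      intro i _
      congr 1
      exact integralBasis_repr_apply K z' i
    refine ⟨∑ i, (RingOfIntegers.basis K).repr z' i * m i, ?_⟩
    rw [h4, map_sum]
    push_cast
    apply Finset.sum_congr rfl
    intro i _
    rw [map_smul, LinearMap.smul_apply, smul_eq_mul, smul_eq_mul, hm i]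

lemma tendsto_absDisc (a : K) (ha : IsIntegral ℤ a)
    (h : IntermediateField.adjoin ℚ ({a} : Set K) ≠ ⊤) :
    Tendsto (fun i => absDisc (ordSeq a ha i)) atTop atTop := by
  classical
  obtain ⟨f, s, hs, hfs, hfa, hfz⟩ := exists_functional a h
  obtain ⟨m, hm⟩ := hfz s hs
  have hm0 : m ≠ 0 := by
    rintro rfl
    exact hfs (by rw [hm]; simp)
  set R : AddSubgroup K := (integralClosure ℤ K).toSubring.toAddSubgroup with hR
  have key : ∀ i : ℕ, (i + 1) ∣ ((ordSeq a ha i).toAddSubgroup.relIndex R) * m.natAbs ∧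
      (ordSeq a ha i).toAddSubgroup.relIndex R ≠ 0 := by
    intro i
    constructor
    · have h1 := AddSubgroup.nsmul_relIndex_mem (ordSeq a ha i).toAddSubgroup
        (K := R) (g := s) hs
      set t := (ordSeq a ha i).toAddSubgroup.relIndex R with ht
      obtain ⟨y, hy, z, hz, hyz⟩ := h1
      obtain ⟨m', hm'⟩ := hfz z hz
      have h2 : f (t • s) = (t : ℚ) * m := by
        rw [map_nsmul, hm, nsmul_eq_mul]
      have h3 : f (y + ((i : K) + 1) * z) = ((i : ℚ) + 1) * m' := by
        have h4 : ((i : K) + 1) * z = ((i : ℚ) + 1) • z := by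
          rw [Algebra.smul_def]
          simp
        rw [map_add, hfa y hy, zero_add, h4, map_smul, hm', smul_eq_mul]
      rw [← hyz, h2] at h3
      have h5 : (t : ℤ) * m = ((i + 1 : ℕ) : ℤ) * m' := by
        have : ((t : ℤ) * m : ℚ) = (((i + 1 : ℕ) : ℤ) * m' : ℚ) := by
          push_cast
          exact h3
        exact_mod_cast this
      have h6 : ((i + 1 : ℕ) : ℤ) ∣ (t : ℤ) * m := ⟨m', h5⟩
      have h7 := Int.natAbs_dvd_natAbs.2 h6
      rw [Int.natAbs_mul, Int.natAbs_natCast, Int.natAbs_natCast] at h7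
      exact h7
    · -- finite index
      set H := (ordSeq a ha i).toAddSubgroup with hH
      let e : 𝓞 K →+ R :=
        { toFun := fun x => ⟨(x : K), x.2⟩
          map_zero' := rfl
          map_add' := fun _ _ => rfl }
      have he : Function.Surjective e := fun x => ⟨⟨x.1, x.2⟩, rfl⟩
      let φ : 𝓞 K →+ (R ⧸ H.addSubgroupOf R) := (QuotientAddGroup.mk' (H.addSubgroupOf R)).comp e
      have hφ : Function.Surjective φ := (QuotientAddGroup.mk'_surjective (H.addSubgroupOf R)).comp he
      have hfin : Module.Finite ℤ (R ⧸ H.addSubgroupOf R) :=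
        Module.Finite.of_surjective φ.toIntLinearMap hφ
      have htor : Module.IsTorsion ℤ (R ⧸ H.addSubgroupOf R) := by
        intro q
        obtain ⟨x, rfl⟩ := hφ q
        refine ⟨⟨((i + 1 : ℕ) : ℤ), mem_nonZeroDivisors_iff_ne_zero.2
          (by exact_mod_cast Nat.succ_ne_zero i)⟩, ?_⟩
        change ((i + 1 : ℕ) : ℤ) • φ x = 0
        rw [← map_zsmul]
        change ((e (((i + 1 : ℕ) : ℤ) • x) : R) : R ⧸ H.addSubgroupOf R) = 0
        rw [QuotientAddGroup.eq_zero_iff, AddSubgroup.mem_addSubgroupOf]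
        refine ⟨0, zero_mem _, x, x.2, ?_⟩
        change (((((i + 1 : ℕ) : ℤ) • x : 𝓞 K)) : K) = _
        simp
      have := Module.finite_of_fg_torsion (R ⧸ H.addSubgroupOf R) htor
      exact AddSubgroup.index_ne_zero_of_finite
  have hd : 1 ≤ (NumberField.discr K).natAbs :=
    Int.natAbs_pos.2 (NumberField.discr_ne_zero K)
  have hlow : ∀ i : ℕ, i ≤ absDisc (ordSeq a ha i) * m.natAbs := by
    intro i
    obtain ⟨h1, h2⟩ := key i
    have hpos : 0 < (ordSeq a ha i).toAddSubgroup.relIndex R * m.natAbs :=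
      Nat.mul_pos (Nat.pos_of_ne_zero h2) (Int.natAbs_pos.2 hm0)
    have h3 := Nat.le_of_dvd hpos h1
    have h4 : (ordSeq a ha i).toAddSubgroup.relIndex R ≤ absDisc (ordSeq a ha i) := by
      unfold absDisc
      rw [← hR]
      calc (ordSeq a ha i).toAddSubgroup.relIndex R
          ≤ ((ordSeq a ha i).toAddSubgroup.relIndex R) ^ 2 :=
            Nat.le_self_pow (by norm_num) _
        _ ≤ _ := Nat.le_mul_of_pos_left _ hd
    calc i ≤ i + 1 := Nat.le_succ i
      _ ≤ (ordSeq a ha i).toAddSubgroup.relIndex R * m.natAbs := h3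
      _ ≤ _ := Nat.mul_le_mul_right _ h4
  rw [tendsto_atTop]
  intro B
  filter_upwards [eventually_ge_atTop (B * m.natAbs)] with i hi
  have h1 := hlow i
  have h2 : B * m.natAbs ≤ absDisc (ordSeq a ha i) * m.natAbs := hi.trans h1
  exact Nat.le_of_mul_le_mul_right h2 (Int.natAbs_pos.2 hm0)

end Vale.Agent.P007
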