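import Vale.Agent.P007.Units

open MeasureTheory Matrix Topology Filter Set NumberField
open scoped nonZeroDivisors ENNReal Pointwise

namespace Vale.Agent.P007

variable {n : ℕ}

section finiteness

variable {K : Type} [Field K] [NumberField K] (σ : Fin n ≃ (K →+* ℝ)) {O : Subring K}

/-- every invertible ideal is homothetic to one squeezed between `M 𝓞_K` and `𝓞_K`. -/
lemma exists_uniform (hO : IsOrder O) :
    ∃ M : ℕ, 0 < M ∧ ∀ I : AddSubgroup K, IsFrac O I → ∃ l : K, l ≠ 0 ∧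
      (∀ α ∈ I, ∃ s : 𝓞 K, l * α = algebraMap (𝓞 K) K s) ∧
      (∀ x : 𝓞 K, ∃ α ∈ I, l * α = algebraMap (𝓞 K) K ((M : 𝓞 K) * x)) := by
  classical
  obtain ⟨N, hN, hNO⟩ := exists_conductor hO
  have hNO' : ∀ x : 𝓞 K, algebraMap (𝓞 K) K ((N : 𝓞 K) * x) ∈ O := by
    intro x
    rw [map_mul, map_natCast]
    exact hNO x
  choose J hJ using ClassGroup.mk0_surjective (R := 𝓞 K)
  set P : ℕ := ∏ c : ClassGroup (𝓞 K), Ideal.absNorm (J c : Ideal (𝓞 K)) with hP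
  have hPpos : 0 < P := by
    apply Finset.prod_pos
    intro c _
    rw [Nat.pos_iff_ne_zero, Ne, Ideal.absNorm_eq_zero_iff]
    exact nonZeroDivisors.coe_ne_zero _
  refine ⟨N * P, Nat.mul_pos hN hPpos, ?_⟩
  intro I hI
  -- clear denominators
  obtain ⟨a, ha0, haI⟩ := hI.den
  have haI2 : ∀ α ∈ I, ∃ s : 𝓞 K, a * α = algebraMap (𝓞 K) K s := by
    intro α hα
    exact ⟨⟨a * α, hO.1 _ (haI α hα)⟩, rfl⟩
  -- the nonzero ideal generated
  set T : Set (𝓞 K) := {s | ∃ α ∈ I, a * α = algebraMap (𝓞 K) K s} with hT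
  set J0 : Ideal (𝓞 K) := Ideal.span T with hJ0
  have hNT : ∀ r ∈ J0, ∀ z : 𝓞 K, ((N : 𝓞 K) * z * r) ∈ T := by
    intro r hr
    induction hr using Submodule.span_induction with
    | mem x hx =>
      intro z
      obtain ⟨α, hα, h1⟩ := hx
      refine ⟨algebraMap (𝓞 K) K ((N : 𝓞 K) * z) * α, hI.smul _ (hNO' z) _ hα, ?_⟩
      rw [map_mul _ ((N : 𝓞 K) * z) x, ← h1]
      ring
    | zero => intro z; exact ⟨0, I.zero_mem, by simp⟩
    | add x y _ _ hx hy =>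
      intro z
      obtain ⟨α, hα, h1⟩ := hx z
      obtain ⟨β, hβ, h2⟩ := hy z
      refine ⟨α + β, I.add_mem hα hβ, ?_⟩
      rw [mul_add, h1, h2, mul_add, map_add]
    | smul y x _ hx =>
      intro z
      obtain ⟨α, hα, h1⟩ := hx (z * y)
      refine ⟨α, hα, ?_⟩
      rw [h1]
      congr 1
      simp only [smul_eq_mul]
      ring
  -- nonzero element
  have hI0 : ∃ α ∈ I, α ≠ 0 := hI.ne
  have hJ0ne : J0 ≠ ⊥ := by
    obtain ⟨α, hα, hα0⟩ := hI0
    obtain ⟨s, hs⟩ := haI2 α hα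
    intro h
    have h1 : s ∈ J0 := Ideal.subset_span ⟨α, hα, hs⟩
    rw [h, Ideal.mem_bot] at h1
    rw [h1, map_zero] at hs
    exact mul_ne_zero ha0 hα0 hs
  let J0' : (Ideal (𝓞 K))⁰ := ⟨J0, mem_nonZeroDivisors_iff_ne_zero.2 hJ0ne⟩
  set c := ClassGroup.mk0 J0' with hc
  have hcc : ClassGroup.mk0 J0' = ClassGroup.mk0 (J c) := by rw [hJ c]
  obtain ⟨x, y, hx, hy, hxy⟩ := ClassGroup.mk0_eq_mk0_iff.1 hcc
  have hxK : algebraMap (𝓞 K) K x ≠ 0 := by
    rwa [Ne, FaithfulSMul.algebraMap_eq_zero_iff]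
  have hyK : algebraMap (𝓞 K) K y ≠ 0 := by
    rwa [Ne, FaithfulSMul.algebraMap_eq_zero_iff]
  refine ⟨algebraMap (𝓞 K) K x / algebraMap (𝓞 K) K y * a,
    mul_ne_zero (div_ne_zero hxK hyK) ha0, ?_, ?_⟩
  · intro α hα
    obtain ⟨r, hr⟩ := haI2 α hα
    have hrJ : r ∈ J0 := Ideal.subset_span ⟨α, hα, hr⟩
    have h1 : x * r ∈ Ideal.span {x} * J0 :=
      Ideal.mul_mem_mul (Ideal.mem_span_singleton_self x) hrJ
    have h2 : x * r ∈ Ideal.span {y} * (J c : Ideal (𝓞 K)) := by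
      rw [← hxy]; exact h1
    rw [Ideal.mem_span_singleton_mul] at h2
    obtain ⟨s, -, hs⟩ := h2
    refine ⟨s, ?_⟩
    have h3 : algebraMap (𝓞 K) K y * algebraMap (𝓞 K) K s =
        algebraMap (𝓞 K) K x * algebraMap (𝓞 K) K r := by
      rw [← map_mul, ← map_mul, hs]
    rw [mul_assoc, hr]
    field_simp
    rw [← h3]
  · intro z
    -- `s := P z ∈ J c`
    have hs : (P : 𝓞 K) * z ∈ (J c : Ideal (𝓞 K)) := by
      have h1 : ((Ideal.absNorm (J c : Ideal (𝓞 K)) : ℕ) : 𝓞 K) ∈ (J c : Ideal (𝓞 K)) :=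
        Ideal.absNorm_mem _
      have h2 : (P : 𝓞 K) = ((∏ d ∈ Finset.univ.erase c,
          Ideal.absNorm (J d : Ideal (𝓞 K)) : ℕ) : 𝓞 K) *
          ((Ideal.absNorm (J c : Ideal (𝓞 K)) : ℕ) : 𝓞 K) := by
        rw [hP, ← Finset.mul_prod_erase Finset.univ
          (fun d => Ideal.absNorm (J d : Ideal (𝓞 K))) (Finset.mem_univ c)]
        push_cast
        ring
      rw [h2, mul_right_comm]
      exact Ideal.mul_mem_left _ _ h1
    have h1 : y * ((P : 𝓞 K) * z) ∈ Ideal.span {y} * (J c : Ideal (𝓞 K)) :=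
      Ideal.mul_mem_mul (Ideal.mem_span_singleton_self y) hs
    rw [← hxy, Ideal.mem_span_singleton_mul] at h1
    obtain ⟨r, hr, hr2⟩ := h1
    obtain ⟨α, hα, h2⟩ := hNT r hr 1
    refine ⟨α, hα, ?_⟩
    have h3 : algebraMap (𝓞 K) K x * algebraMap (𝓞 K) K r =
        algebraMap (𝓞 K) K y * algebraMap (𝓞 K) K ((P : 𝓞 K) * z) := by
      rw [← map_mul, ← map_mul, hr2]
    rw [mul_assoc, h2, mul_one, map_mul]
    have h4 : algebraMap (𝓞 K) K (((N * P : ℕ) : 𝓞 K) * z) =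
        algebraMap (𝓞 K) K (N : 𝓞 K) * algebraMap (𝓞 K) K ((P : 𝓞 K) * z) := by
      rw [← map_mul]
      congr 1
      push_cast
      ring
    rw [h4]
    field_simp
    linear_combination algebraMap (𝓞 K) K (N : 𝓞 K) * h3

/-- The squeezed additive subgroups are finite in number. -/
lemma finite_squeezed {M : ℕ} (hM : 0 < M) :
    {L : AddSubgroup K | (∀ α ∈ L, ∃ s : 𝓞 K, α = algebraMap (𝓞 K) K s) ∧
      ∀ x : 𝓞 K, algebraMap (𝓞 K) K ((M : 𝓞 K) * x) ∈ L}.Finite := by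
  classical
  set I : Ideal (𝓞 K) := Ideal.span {(M : 𝓞 K)} with hI
  have hne : I ≠ ⊥ := by
    rw [hI, Ne, Ideal.span_singleton_eq_bot]
    exact_mod_cast hM.ne'
  have : Finite (𝓞 K ⧸ I) := I.finiteQuotientOfFreeOfNeBot hne
  let Φ : AddSubgroup K → Set (𝓞 K ⧸ I) := fun L =>
    {q | ∃ s : 𝓞 K, algebraMap (𝓞 K) K s ∈ L ∧ Ideal.Quotient.mk I s = q}
  have key : ∀ L L' : AddSubgroup K, (∀ α ∈ L, ∃ s : 𝓞 K, α = algebraMap (𝓞 K) K s) →
      (∀ x : 𝓞 K, algebraMap (𝓞 K) K ((M : 𝓞 K) * x) ∈ L') → Φ L = Φ L' → L ≤ L' := by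
    intro L L' h1 h2 h3 α hα
    obtain ⟨s, rfl⟩ := h1 α hα
    have h4 : Ideal.Quotient.mk I s ∈ Φ L' := by
      rw [← h3]
      exact ⟨s, hα, rfl⟩
    obtain ⟨s', hs', he⟩ := h4
    rw [eq_comm, Ideal.Quotient.eq, hI, Ideal.mem_span_singleton'] at he
    obtain ⟨z, hz⟩ := he
    have h5 : s = s' + (M : 𝓞 K) * z := by linear_combination -hz
    rw [h5, map_add]
    exact L'.add_mem hs' (h2 z)
  apply Set.Finite.of_finite_image (f := Φ) (Set.toFinite _)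
  intro L hL L' hL' h
  exact le_antisymm (key L L' hL.1 hL'.2 h) (key L' L hL'.1 hL.2 h.symm)

/-- The union of the orbits attached to a homothety class. -/
def orb (L : Set K) (w : Fin n → ℤˣ) : Set (X n) :=
  {x | ∃ (t : Fin n → ℝ) (g : SLR n), (∀ j, 0 < t j) ∧ x = X.mk g ∧
    rowLattice g = {v | ∃ α ∈ L, v = fun j => t j * (σ j α * ((w j : ℤ) : ℝ))}}

omit [NumberField K] in
lemma torusOrbit_eq_orb {L : Set K} {w : Fin n → ℤˣ} {t : Fin n → ℝ} (ht : ∀ j, 0 < t j)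
    {g : SLR n}
    (hg : rowLattice g = {v | ∃ α ∈ L, v = fun j => t j * (σ j α * ((w j : ℤ) : ℝ))}) :
    torusOrbit (X.mk g) = orb σ L w := by
  apply Set.Subset.antisymm
  · rintro _ ⟨u, rfl⟩
    refine ⟨fun j => t j * Real.exp (fullCoord u j), g * torus u,
      fun j => mul_pos (ht j) (Real.exp_pos _), rfl, ?_⟩
    rw [rowLattice_torus, hg]
    ext v
    constructor
    · rintro ⟨_, ⟨α, hα, rfl⟩, rfl⟩
      exact ⟨α, hα, by funext j; ring⟩
    · rintro ⟨α, hα, rfl⟩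
      exact ⟨_, ⟨α, hα, rfl⟩, by funext j; ring⟩
  · rintro _ ⟨t', g', ht', rfl, hg'⟩
    have e : rowLattice g' = scaleBy (fun j => t' j / t j) (rowLattice g) := by
      rw [hg, hg']
      ext v
      constructor
      · rintro ⟨α, hα, rfl⟩
        refine ⟨_, ⟨α, hα, rfl⟩, ?_⟩
        funext j
        have := (ht j).ne'
        field_simp
      · rintro ⟨_, ⟨α, hα, rfl⟩, rfl⟩
        refine ⟨α, hα, ?_⟩
        funext j
        have := (ht j).ne'
        field_simp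
    obtain ⟨u, hu, -⟩ := exists_torus_of_scale (fun j => div_pos (ht' j) (ht j)) e
    exact ⟨u, hu.symm⟩

/-- sign as a unit -/
noncomputable def sg (r : ℝ) : ℤˣ := if 0 < r then 1 else -1

lemma mul_sg {r : ℝ} (hr : r ≠ 0) : r * (((sg r : ℤˣ) : ℤ) : ℝ) = |r| := by
  unfold sg
  split_ifs with h
  · simp [abs_of_pos h]
  · have : r < 0 := lt_of_le_of_ne (not_lt.1 h) hr
    simp [abs_of_neg this]

lemma packet_finite' (hO : IsOrder O) :
    {S | ∃ x, IsFracPoint σ O x ∧ S = torusOrbit x}.Finite := by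
  classical
  obtain ⟨M, hM, hMI⟩ := exists_uniform hO
  have hfin := finite_squeezed (K := K) hM
  have hfin2 := hfin.prod (Set.finite_univ (α := Fin n → ℤˣ))
  refine (hfin2.image (fun p : AddSubgroup K × (Fin n → ℤˣ) => orb σ (p.1 : Set K) p.2)).subset ?_
  rintro S ⟨x, ⟨I, w, c, g, hI, hc, rfl, hg⟩, rfl⟩
  obtain ⟨l, hl, h1, h2⟩ := hMI I hI
  let L : AddSubgroup K :=
    { carrier := {β | ∃ α ∈ I, l * α = β}
      zero_mem' := ⟨0, I.zero_mem, mul_zero _⟩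
      add_mem' := by
        rintro _ _ ⟨α, hα, rfl⟩ ⟨β, hβ, rfl⟩
        exact ⟨α + β, I.add_mem hα hβ, mul_add _ _ _⟩
      neg_mem' := by
        rintro _ ⟨α, hα, rfl⟩
        exact ⟨-α, I.neg_mem hα, mul_neg _ _⟩ }
  have hl' : ∀ j, σ j l ≠ 0 := fun j => (map_ne_zero (σ j)).2 hl
  refine ⟨(L, fun j => w j * sg (σ j l)), ⟨⟨?_, ?_⟩, Set.mem_univ _⟩, ?_⟩
  · rintro _ ⟨α, hα, rfl⟩
    exact h1 α hα
  · intro x
    exact h2 x
  · symm
    apply torusOrbit_eq_orb σ (t := fun j => c / |σ j l|)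
      (fun j => div_pos hc (abs_pos.2 (hl' j)))
    rw [hg]
    have hcoord : ∀ (α : K) (j : Fin n), c * (σ j α * ((w j : ℤ) : ℝ)) =
        c / |σ j l| * (σ j (l * α) * (((w j * sg (σ j l) : ℤˣ) : ℤ) : ℝ)) := by
      intro α j
      have h3 := mul_sg (hl' j)
      have h4 : |σ j l| ≠ 0 := abs_ne_zero.2 (hl' j)
      rw [map_mul]
      push_cast
      calc c * (σ j α * ((w j : ℤ) : ℝ)) = c / |σ j l| * (σ j α * ((w j : ℤ) : ℝ) * |σ j l|) := by
            field_simp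
        _ = _ := by rw [← h3]; ring
    ext v
    constructor
    · rintro ⟨α, hα, rfl⟩
      exact ⟨l * α, ⟨α, hα, rfl⟩, by funext j; exact hcoord α j⟩
    · rintro ⟨_, ⟨α, hα, rfl⟩, rfl⟩
      exact ⟨α, hα, by funext j; exact (hcoord α j).symm⟩

end finiteness

end Vale.Agent.P007
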