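import Vale.Agent.P007.Orders

open Filter Set NumberField Topology
open scoped ComplexConjugate

namespace Vale.Agent.P007

lemma exists_conj_gal (L : Type) [Field L] [NumberField L] [IsGalois ℚ L] (φ : L →+* ℂ) :
    ∃ c : L ≃ₐ[ℚ] L, ∀ x, conj (φ x) = φ (c x) := by
  obtain ⟨s, hs⟩ := ComplexEmbedding.exists_comp_symm_eq_of_comp_eq (k := ℚ) φ
    (ComplexEmbedding.conjugate φ) (by ext; simp)
  refine ⟨s.symm, fun x => ?_⟩
  have := RingHom.congr_fun hs x
  simpa using this.symm

theorem exists_real_galois (n : ℕ) (hn : 0 < n) :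
    ∃ (K : Type) (_ : Field K) (_ : NumberField K), IsGalois ℚ K ∧ Module.finrank ℚ K = n ∧
      Nonempty (K →+* ℝ) := by
  obtain ⟨p, hp, -, hmod⟩ := Nat.exists_prime_gt_modEq_one (k := 2 * n) 2 (by omega)
  have : Fact p.Prime := ⟨hp⟩
  have hdvd : 2 * n ∣ p - 1 := (Nat.modEq_iff_dvd' hp.one_lt.le).1 hmod.symm
  let L := CyclotomicField p ℚ
  have hne : NeZero ((p : ℕ) : ℚ) := ⟨by exact_mod_cast hp.ne_zero⟩
  have hcycl : IsCyclotomicExtension {p} ℚ L := CyclotomicField.isCyclotomicExtension p ℚ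
  have hgal : IsGalois ℚ L := IsCyclotomicExtension.isGalois {p} ℚ L
  have hirr : Irreducible (Polynomial.cyclotomic p ℚ) :=
    Polynomial.cyclotomic.irreducible_rat hp.pos
  let e : (L ≃ₐ[ℚ] L) ≃* (ZMod p)ˣ := IsCyclotomicExtension.autEquivPow L hirr
  have hcyc : IsCyclic (L ≃ₐ[ℚ] L) := isCyclic_of_injective e.toMonoidHom e.injective
  have hcard : Nat.card (L ≃ₐ[ℚ] L) = p - 1 := by
    rw [Nat.card_congr e.toEquiv, Nat.card_eq_fintype_card, ZMod.card_units]
  obtain ⟨g0, hg0⟩ := hcyc.exists_generator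
  have hord : orderOf g0 = p - 1 := by
    rw [orderOf_eq_card_of_forall_mem_zpowers hg0, hcard]
  have hp1 : 0 < p - 1 := by have := hp.one_lt; omega
  have hcomm : ∀ a b : (L ≃ₐ[ℚ] L), a * b = b * a := by
    intro a b
    apply e.injective
    rw [map_mul, map_mul, mul_comm]
  set H : Subgroup (L ≃ₐ[ℚ] L) := Subgroup.zpowers (g0 ^ n) with hH
  have hHn : H.Normal := ⟨fun x hx g => by rw [hcomm g x, mul_assoc, mul_inv_cancel, mul_one]; exact hx⟩
  obtain ⟨k, hk⟩ := hdvd
  have hkpos : 0 < k := by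
    rcases Nat.eq_zero_or_pos k with h | h
    · rw [h, mul_zero] at hk; omega
    · exact h
  have hcardH : Nat.card H = 2 * k := by
    rw [hH, Nat.card_zpowers, orderOf_pow_of_dvd hn.ne' (by rw [hord, hk]; exact ⟨2 * k, by ring⟩),
      hord, hk]
    have : 2 * n * k = n * (2 * k) := by ring
    rw [this, Nat.mul_div_cancel_left _ hn]
  let K := IntermediateField.fixedField H
  have hfin1 : Module.finrank K L = 2 * k := by
    rw [IntermediateField.finrank_fixedField_eq_card, hcardH]
  have hfin2 : Module.finrank ℚ L = 2 * n * k := by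
    rw [← IsGalois.card_aut_eq_finrank, hcard, hk]
  have hfin3 : Module.finrank ℚ K = n := by
    have h1 := Module.finrank_mul_finrank ℚ K L
    rw [hfin1, hfin2] at h1
    have h2 : Module.finrank ℚ K * (2 * k) = n * (2 * k) := by rw [h1]; ring
    exact Nat.eq_of_mul_eq_mul_right (by omega) h2
  obtain ⟨φ⟩ : Nonempty (L →+* ℂ) := inferInstance
  obtain ⟨c, hc⟩ := exists_conj_gal L φ
  have hcc : c * c = 1 := by
    ext x
    apply φ.injective
    change φ (c (c x)) = φ x
    rw [← hc, ← hc, Complex.conj_conj]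
  have hcH : c ∈ H := by
    obtain ⟨j, hj⟩ := Subgroup.mem_zpowers_iff.1 (hg0 c)
    have h1 : g0 ^ (2 * j) = 1 := by
      rw [two_mul, zpow_add, hj, hcc]
    have h2 : ((p - 1 : ℕ) : ℤ) ∣ 2 * j := by
      rw [← hord]
      exact orderOf_dvd_iff_zpow_eq_one.2 h1
    rw [hk] at h2
    obtain ⟨m, hm⟩ := h2
    have h3 : j = n * (k * m) := by
      push_cast at hm
      have : (2 : ℤ) * j = 2 * (n * (k * m)) := by rw [hm]; ring
      omega
    rw [hH, Subgroup.mem_zpowers_iff]
    refine ⟨k * m, ?_⟩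
    rw [← hj, h3, ← zpow_natCast, ← zpow_mul]
  refine ⟨K, inferInstance, inferInstance, IsGalois.of_fixedField_normal_subgroup H, hfin3, ?_⟩
  have hreal : ComplexEmbedding.IsReal (φ.comp (algebraMap K L)) := by
    rw [ComplexEmbedding.isReal_iff]
    ext x
    change conj (φ (x : L)) = φ (x : L)
    rw [hc]
    congr 1
    exact x.2 ⟨c, hcH⟩
  exact ⟨hreal.embedding⟩

lemma exists_sigma {K : Type} [Field K] [NumberField K] [IsGalois ℚ K] (ψ : K →+* ℝ) :
    Nonempty (Fin (Module.finrank ℚ K) ≃ (K →+* ℝ)) := by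
  classical
  have hinj : Function.Injective (fun f : K →+* ℝ => Complex.ofRealHom.comp f) := by
    intro f g h
    ext x
    have := RingHom.congr_fun h x
    simpa using this
  have : Finite (K →+* ℝ) := Finite.of_injective _ hinj
  have : Fintype (K →+* ℝ) := Fintype.ofFinite _
  have h1 : Fintype.card (K →+* ℝ) ≤ Module.finrank ℚ K := by
    rw [← Embeddings.card K ℂ]
    exact Fintype.card_le_of_injective _ hinj
  have hinj2 : Function.Injective (fun g : K ≃ₐ[ℚ] K => ψ.comp (g : K →+* K)) := by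
    intro f g h
    ext x
    have := RingHom.congr_fun h x
    exact ψ.injective this
  have h2 : Module.finrank ℚ K ≤ Fintype.card (K →+* ℝ) := by
    rw [← IsGalois.card_aut_eq_finrank, Nat.card_eq_fintype_card]
    exact Fintype.card_le_of_injective _ hinj2
  exact ⟨(Fintype.equivFinOfCardEq (le_antisymm h1 h2)).symm⟩

/-- Totally real Galois fields of composite degree with an element generating a proper
nontrivial subfield. -/
theorem exists_field (n : ℕ) (h4 : 1 < n) (hcomp : ¬ n.Prime) :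
    ∃ (K : Type) (_ : Field K) (_ : NumberField K) (σ : Fin n ≃ (K →+* ℝ)) (a : K),
      Module.finrank ℚ K = n ∧ IsIntegral ℤ a ∧
      IntermediateField.adjoin ℚ ({a} : Set K) ≠ ⊤ ∧ ∃ j k, σ j a ≠ σ k a := by
  obtain ⟨K, _, _, hgal, hfin, ⟨ψ⟩⟩ := exists_real_galois n (by omega)
  obtain ⟨σ₀⟩ := exists_sigma ψ
  let σ : Fin n ≃ (K →+* ℝ) := (finCongr hfin.symm).trans σ₀
  -- subgroup of prime order
  have hcard : Nat.card (K ≃ₐ[ℚ] K) = n := by rw [IsGalois.card_aut_eq_finrank, hfin]
  set q := n.minFac with hq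
  have hqp : q.Prime := Nat.minFac_prime (by omega)
  have hqdvd : q ∣ Nat.card (K ≃ₐ[ℚ] K) := by rw [hcard]; exact Nat.minFac_dvd n
  have hqn : q ≠ n := by
    intro h
    exact hcomp (h ▸ hqp)
  have : Fact q.Prime := ⟨hqp⟩
  obtain ⟨g, hg⟩ := exists_prime_orderOf_dvd_card' q hqdvd
  let F := IntermediateField.fixedField (Subgroup.zpowers g)
  have hF : Module.finrank F K = q := by
    rw [IntermediateField.finrank_fixedField_eq_card, Nat.card_zpowers, hg]
  have hFtop : F ≠ ⊤ := by
    intro h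
    rw [h, IntermediateField.finrank_top] at hF
    exact hqp.one_lt.ne hF
  have hFbot : F ≠ ⊥ := by
    intro h
    rw [h, IntermediateField.finrank_bot', hfin] at hF
    exact hqn hF.symm
  obtain ⟨b, hbF, hb⟩ : ∃ b ∈ F, b ∉ (⊥ : IntermediateField ℚ K) := by
    by_contra hcon
    push Not at hcon
    exact hFbot (le_bot_iff.1 hcon)
  have hx : IsAlgebraic ℤ b := (IsFractionRing.isAlgebraic_iff ℤ ℚ K).2
      (Algebra.IsAlgebraic.isAlgebraic b)
  obtain ⟨y, hy0, hy⟩ := hx.exists_integral_multiple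
  have haF : y • b ∈ F := zsmul_mem hbF y
  refine ⟨K, inferInstance, inferInstance, σ, y • b, hfin, hy, ?_, ?_⟩
  · intro h
    apply hFtop
    rw [← top_le_iff, ← h, IntermediateField.adjoin_le_iff]
    intro x hx
    rw [Set.mem_singleton_iff] at hx
    rw [hx]
    exact haF
  · by_contra hcon
    push Not at hcon
    apply hb
    have h0 : 0 < n := by omega
    have h1 : y • b ∈ (⊥ : IntermediateField ℚ K) := by
      rw [IsGalois.mem_bot_iff_fixed]
      intro f
      have h2 := hcon (σ.symm ((σ ⟨0, h0⟩).comp (f : K →+* K))) ⟨0, h0⟩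
      rw [Equiv.apply_symm_apply] at h2
      exact (σ ⟨0, h0⟩).injective h2
    have h3 : b = (y : ℚ)⁻¹ • (y • b) := by
      have : (y : ℚ) ≠ 0 := by exact_mod_cast hy0
      rw [← Int.cast_smul_eq_zsmul ℚ, smul_smul, inv_mul_cancel₀ this, one_smul]
    rw [h3]
    exact IntermediateField.smul_mem _ h1

end Vale.Agent.P007
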