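import Mathlib

open MeasureTheory Matrix
open scoped ENNReal

namespace Vale.Agent.P007

/-- `SL_n(ℝ)`. -/
abbrev SLR (n : ℕ) := Matrix.SpecialLinearGroup (Fin n) ℝ

/-- The image of `SL_n(ℤ)` in `SL_n(ℝ)`. -/
def SLZ (n : ℕ) : Subgroup (SLR n) :=
  (Matrix.SpecialLinearGroup.map (n := Fin n) (Int.castRingHom ℝ)).range

/-- `X_n = SL_n(ℤ)\SL_n(ℝ)`, the space of covolume-one lattices in `ℝ^n`
(the class of `g` is the lattice `ℤ^n g` of row vectors). -/
def X (n : ℕ) : Type := Quotient (MulAction.orbitRel (SLZ n) (SLR n))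

/-- The class `SL_n(ℤ) g`. -/
def X.mk {n : ℕ} (g : SLR n) : X n := Quotient.mk _ g

/-- The quotient topology. -/
instance (n : ℕ) : TopologicalSpace (X n) := TopologicalSpace.coinduced X.mk inferInstance

/-- The Borel sets. -/
instance (n : ℕ) : MeasurableSpace (X n) := borel (X n)

/-- The right translate `B h` of a set `B`. -/
def translate {n : ℕ} (B : Set (X n)) (h : SLR n) : Set (X n) :=
  {x | ∃ g, X.mk g ∈ B ∧ x = X.mk (g * h)}

/-- The lattice `ℤ^n g` of a matrix `g`. -/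
def rowLattice {n : ℕ} (g : SLR n) : Set (Fin n → ℝ) :=
  {v | ∃ z : Fin n → ℤ, v = (fun i => (z i : ℝ)) ᵥ* g.1}

/-- `(u_1, …, u_{n-1}) ↦ (u_1, …, u_{n-1}, -(u_1 + ⋯ + u_{n-1}))`. -/
def fullCoord {n : ℕ} (u : Fin (n - 1) → ℝ) : Fin n → ℝ :=
  fun j => if h : (j : ℕ) < n - 1 then u ⟨j, h⟩ else -∑ i, u i

lemma sum_fullCoord {n : ℕ} (u : Fin (n - 1) → ℝ) : ∑ j, fullCoord u j = 0 := by
  cases n with
  | zero => simp
  | succ m =>
    rw [Fin.sum_univ_castSucc]
    have h1 : ∀ j : Fin m, fullCoord (n := m + 1) u (Fin.castSucc j) = u j := by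
      intro j
      simp [fullCoord]
    have h2 : fullCoord (n := m + 1) u (Fin.last m) = -∑ i, u i := by
      simp [fullCoord]
    rw [h2]
    simp only [h1]
    exact add_neg_cancel _

/-- The element `diag(e^{u_1}, …, e^{u_n})`, `u_n = -(u_1 + ⋯ + u_{n-1})`, of `A_n`. -/
noncomputable def torus {n : ℕ} (u : Fin (n - 1) → ℝ) : SLR n :=
  ⟨Matrix.diagonal (fun j => Real.exp (fullCoord u j)), by
    rw [Matrix.det_diagonal, ← Real.exp_sum, sum_fullCoord, Real.exp_zero]⟩

/-- The orbit of the class of `g` under `A_n`. -/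
def orbitA {n : ℕ} (g : SLR n) : Set (X n) := Set.range fun u => X.mk (g * torus u)

variable {n : ℕ}

/-- `v` is the volume of the orbit `S`: the Lebesgue measure of a measurable set `F` of
parameters mapped bijectively to the orbit. -/
def IsVolume (S : Set (X n)) (v : ℝ≥0∞) : Prop :=
  ∃ (g : SLR n) (F : Set (Fin (n - 1) → ℝ)), S = orbitA g ∧ MeasurableSet F ∧
    Set.BijOn (fun u => X.mk (g * torus u)) F S ∧ v = volume F

/-- `ν` is the `A_n`-invariant probability measure on the orbit `S`. -/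
def IsOrbitProbability (S : Set (X n)) (ν : Measure (X n)) : Prop :=
  IsProbabilityMeasure ν ∧ ν Sᶜ = 0 ∧
    ∀ u B, MeasurableSet B → ν (translate B (torus u)) = ν B

/-- `m` is an `SL_n(ℝ)`-invariant probability measure on `X_n`. -/
def IsInvariantProbability (m : Measure (X n)) : Prop :=
  IsProbabilityMeasure m ∧ ∀ h B, MeasurableSet B → m (translate B h) = m B

section field

variable {K : Type} [Field K] [NumberField K]

/-- An order of a number field `K`: a subring of `𝓞 K` spanning `K` over `ℚ`. -/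
def IsOrder (O : Subring K) : Prop :=
  (∀ x ∈ O, IsIntegral ℤ x) ∧ Submodule.span ℚ (O : Set K) = ⊤

/-- `|Disc O| = |Disc K| [𝓞_K : O]^2`. -/
noncomputable def absDisc (O : Subring K) : ℕ :=
  (NumberField.discr K).natAbs *
    (O.toAddSubgroup.relIndex (integralClosure ℤ K).toSubring.toAddSubgroup) ^ 2

/-- `I` is a (nonzero) fractional `O`-ideal. -/
def IsFractional (O : Subring K) (I : AddSubgroup K) : Prop :=
  (∃ x ∈ I, x ≠ 0) ∧ (∀ a ∈ O, ∀ x ∈ I, a * x ∈ I) ∧ ∃ d : K, d ≠ 0 ∧ ∀ x ∈ I, d * x ∈ O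

/-- `I` is a proper invertible fractional `O`-ideal. -/
def IsInvertible (O : Subring K) (I : AddSubgroup K) : Prop :=
  IsFractional O I ∧ (∀ a, (∀ x ∈ I, a * x ∈ I) ↔ a ∈ O) ∧
    ∃ J, IsFractional O J ∧ AddSubgroup.closure {z | ∃ x ∈ I, ∃ y ∈ J, z = x * y} = O.toAddSubgroup

/-- The image in `ℝ^n` of a subset of `K` under a scaling vector times the embeddings. -/
def embImage (σ : Fin n ≃ (K →+* ℝ)) (s : Fin n → ℝ) (T : Set K) : Set (Fin n → ℝ) :=
  {v | ∃ a ∈ T, v = fun j => s j * σ j a}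

/-- The packet: the set of the distinct orbits `Λ_I w A_n`. -/
def packet (σ : Fin n ≃ (K →+* ℝ)) (O : Subring K) : Set (Set (X n)) :=
  {S | ∃ (I : AddSubgroup K) (w : Fin n → ℤˣ) (c : ℝ) (g : SLR n), IsInvertible O I ∧ 0 < c ∧
    rowLattice g = embImage σ (fun j => c * ((w j : ℤ) : ℝ)) I ∧ S = orbitA g}

/-- `μ` is the packet measure of `(K, O, σ)`. -/
def IsPacketMeasure (σ : Fin n ≃ (K →+* ℝ)) (O : Subring K) (μ : Measure (X n)) : Prop :=
  ∃ (P : Finset (Set (X n))) (vol : Set (X n) → ℝ≥0∞) (ν : Set (X n) → Measure (X n)),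
    (P : Set (Set (X n))) = packet σ O ∧
    (∀ S ∈ P, IsCompact S ∧ IsVolume S (vol S) ∧ IsOrbitProbability S (ν S)) ∧
    ∀ B, MeasurableSet B → μ B = (∑ S ∈ P, vol S * ν S B) / ∑ S ∈ P, vol S

end field

/-- A triple `(K, O, σ)`: a totally real field of degree `n` with an ordering of its real
embeddings and an order. -/
structure Triple (n : ℕ) where
  K : Type
  [field : Field K]
  [numberField : NumberField K]
  degree : Module.finrank ℚ K = n
  σ : Fin n ≃ (K →+* ℝ)
  O : Subring K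
  isOrder : IsOrder O

attribute [instance] Triple.field Triple.numberField

/-- `|Disc O|` -/
noncomputable def Triple.disc (D : Triple n) : ℕ := absDisc D.O

/-- `σ(O)` -/
def Triple.image (D : Triple n) : Set (Fin n → ℝ) := embImage D.σ 1 D.O

/-- `μ` is the packet measure of `(K, O, σ)`. -/
def Triple.Packets (D : Triple n) (μ : Measure (X n)) : Prop := IsPacketMeasure D.σ D.O μ

end Vale.Agent.P007
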