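import Vale.Agent.P007.Defs

open MeasureTheory Matrix Topology Filter Set
open scoped nonZeroDivisors ENNReal

namespace Vale.Agent.P007

variable {n : ℕ}

instance instLCM : LocallyCompactSpace (Matrix (Fin n) (Fin n) ℝ) :=
  inferInstanceAs (LocallyCompactSpace (Fin n → Fin n → ℝ))

instance instSCM : SecondCountableTopology (Matrix (Fin n) (Fin n) ℝ) :=
  inferInstanceAs (SecondCountableTopology (Fin n → Fin n → ℝ))

instance instLC : LocallyCompactSpace (SLR n) :=
  (Matrix.SpecialLinearGroup.isClosedEmbedding_val (n := Fin n) (R := ℝ)).locallyCompactSpace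

instance instT2 : T2Space (SLR n) :=
  (Matrix.SpecialLinearGroup.isClosedEmbedding_val (n := Fin n) (R := ℝ)).isEmbedding.t2Space

instance instSC : SecondCountableTopology (SLR n) :=
  (Matrix.SpecialLinearGroup.isClosedEmbedding_val
    (n := Fin n) (R := ℝ)).isEmbedding.secondCountableTopology

lemma isClosedEmbedding_intMap :
    IsClosedEmbedding (Matrix.SpecialLinearGroup.map (n := Fin n) (Int.castRingHom ℝ)) :=
  Int.isClosedEmbedding_coe_real.specialLinearGroup_map (f := Int.castRingHom ℝ)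

lemma tendsto_SLZ : Tendsto (SLZ n).subtype cofinite (cocompact (SLR n)) := by
  have h1 : Tendsto (Matrix.SpecialLinearGroup.map (n := Fin n) (Int.castRingHom ℝ))
      cofinite (cocompact (SLR n)) := by
    have := (isClosedEmbedding_intMap (n := n)).tendsto_cocompact
    rwa [cocompact_eq_cofinite] at this
  rw [tendsto_def] at h1 ⊢
  intro s hs
  have h2 := h1 s hs
  rw [mem_cofinite] at h2 ⊢
  have h3 : ((SLZ n).subtype ⁻¹' s)ᶜ ⊆
      (fun a => (⟨Matrix.SpecialLinearGroup.map (n := Fin n) (Int.castRingHom ℝ) a, a, rfl⟩ :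
        SLZ n)) '' ((Matrix.SpecialLinearGroup.map (n := Fin n) (Int.castRingHom ℝ)) ⁻¹' s)ᶜ := by
    rintro ⟨x, a, rfl⟩ hx
    exact ⟨a, hx, rfl⟩
  exact (h2.image _).subset h3

instance instPD : ProperlyDiscontinuousSMul (SLZ n) (SLR n) :=
  Subgroup.properlyDiscontinuousSMul_of_tendsto_cofinite (SLZ n) tendsto_SLZ

instance : T2Space (X n) :=
  inferInstanceAs (T2Space (Quotient (MulAction.orbitRel (SLZ n) (SLR n))))

instance : SecondCountableTopology (X n) :=
  ContinuousConstSMul.secondCountableTopology (Γ := SLZ n) (T := SLR n)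

lemma isOpenQuotientMap_mk : IsOpenQuotientMap (X.mk (n := n)) :=
  MulAction.isOpenQuotientMap_quotientMk (Γ := SLZ n) (T := SLR n)

instance : LocallyCompactSpace (X n) :=
  (isOpenQuotientMap_mk (n := n)).locallyCompactSpace

lemma continuous_mk : Continuous (X.mk (n := n)) := (isOpenQuotientMap_mk (n := n)).continuous

lemma rmul_mk (g h : SLR n) : (X.mk g).rmul h = X.mk (g * h) := rfl

lemma mk_surjective : Function.Surjective (X.mk (n := n)) :=
  (isOpenQuotientMap_mk (n := n)).surjective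

lemma continuous_rmul (h : SLR n) : Continuous (fun x : X n => x.rmul h) := by
  rw [(isOpenQuotientMap_mk (n := n)).isQuotientMap.continuous_iff]
  have : ((fun x : X n => x.rmul h) ∘ X.mk) = fun g => X.mk (g * h) := by
    funext g; rfl
  rw [this]
  exact continuous_mk.comp (continuous_mul_const h)

lemma mk_eq_mk {g h : SLR n} : X.mk g = X.mk h ↔ ∃ γ ∈ SLZ n, g = γ * h := by
  constructor
  · intro e
    have := Quotient.exact e
    obtain ⟨γ, hγ⟩ := this
    exact ⟨γ, γ.2, hγ.symm⟩
  · rintro ⟨γ, hγ, rfl⟩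
    exact Quotient.sound ⟨⟨γ, hγ⟩, rfl⟩

lemma rmul_rmul_inv (x : X n) (h : SLR n) : (x.rmul h).rmul h⁻¹ = x := by
  rw [← X.rmul_mul, mul_inv_cancel, X.rmul_one]

lemma rmul_inv_rmul (x : X n) (h : SLR n) : (x.rmul h⁻¹).rmul h = x := by
  rw [← X.rmul_mul, inv_mul_cancel, X.rmul_one]

lemma translate_eq (B : Set (X n)) (h : SLR n) :
    translate B h = (fun x => x.rmul h⁻¹) ⁻¹' B := by
  ext x
  constructor
  · rintro ⟨g, hg, rfl⟩
    change (X.mk (g * h)).rmul h⁻¹ ∈ B
    rw [rmul_mk, mul_inv_cancel_right]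
    exact hg
  · intro hx
    obtain ⟨g, rfl⟩ := mk_surjective x
    exact ⟨g * h⁻¹, hx, by rw [inv_mul_cancel_right]⟩

lemma orbitA_eq (g : SLR n) : orbitA g = torusOrbit (X.mk g) := rfl

end Vale.Agent.P007

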