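import Vale.Agent.P007.Lat

open MeasureTheory Matrix Topology Filter Set NumberField
open scoped nonZeroDivisors ENNReal Pointwise

namespace Vale.Agent.P007

variable {n : ℕ}

section places

variable {K : Type} [Field K] [NumberField K] (σ : Fin n ≃ (K →+* ℝ))

/-- The infinite place of `σ j`. -/
noncomputable def plc (j : Fin n) : InfinitePlace K :=
  InfinitePlace.mk (Complex.ofRealHom.comp (σ j))

lemma plc_apply (j : Fin n) (x : K) : plc σ j x = |σ j x| := by
  simp [plc, InfinitePlace.apply]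

lemma isReal_comp (f : K →+* ℝ) : ComplexEmbedding.IsReal (Complex.ofRealHom.comp f) := by
  rw [ComplexEmbedding.isReal_iff]
  ext x
  simp

lemma plc_isReal (j : Fin n) : (plc σ j).IsReal := ⟨_, isReal_comp (σ j), rfl⟩

lemma plc_injective : Function.Injective (plc σ) := by
  intro j k h
  have h1 := InfinitePlace.mk_eq_iff.1 h
  have h2 : Complex.ofRealHom.comp (σ j) = Complex.ofRealHom.comp (σ k) := by
    rcases h1 with h1 | h1
    · exact h1
    · rw [(ComplexEmbedding.isReal_iff.1 (isReal_comp (σ j)))] at h1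
      exact h1
  apply σ.injective
  ext x
  have h3 := RingHom.congr_fun h2 x
  simpa using h3

lemma plc_bijective (hn : Module.finrank ℚ K = n) : Function.Bijective (plc σ) := by
  classical
  rw [Fintype.bijective_iff_injective_and_card]
  refine ⟨plc_injective σ, ?_⟩
  apply le_antisymm (Fintype.card_le_of_injective _ (plc_injective σ))
  rw [Fintype.card_fin, ← hn, ← InfinitePlace.card_add_two_mul_card_eq_rank K,
    InfinitePlace.card_eq_nrRealPlaces_add_nrComplexPlaces]
  omega

lemma sum_log_unit (hn : Module.finrank ℚ K = n) (ε : (𝓞 K)ˣ) :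
    ∑ j, Real.log |σ j (ε : K)| = 0 := by
  classical
  have h := Units.sum_mult_mul_log ε
  rw [← h]
  rw [← (Equiv.ofBijective _ (plc_bijective σ hn)).sum_comp]
  apply Finset.sum_congr rfl
  intro j _
  simp only [Equiv.ofBijective_apply]
  rw [InfinitePlace.mult_isReal ⟨plc σ j, plc_isReal σ j⟩]
  simp [plc_apply]

open Units.dirichletUnitTheorem in
lemma log_functional (hn : Module.finrank ℚ K = n) (c : Fin n → ℝ)
    (h : ∀ ε : (𝓞 K)ˣ, ∑ j, c j * Real.log |σ j (ε : K)| = 0) (j k : Fin n) : c j = c k := by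
  classical
  let e := Equiv.ofBijective _ (plc_bijective σ hn)
  set j0 : Fin n := e.symm w₀ with hj0
  have hj0' : plc σ j0 = w₀ := e.apply_symm_apply w₀
  suffices H : ∀ j, c j = c j0 by rw [H j, H k]
  have h1 : ∀ ε : (𝓞 K)ˣ, ∑ j, (c j - c j0) * Real.log |σ j (ε : K)| = 0 := by
    intro ε
    have h2 := h ε
    have h3 := sum_log_unit σ hn ε
    simp only [sub_mul, Finset.sum_sub_distrib, h2, ← Finset.mul_sum, h3, mul_zero, sub_zero]
  let f : logSpace K →ₗ[ℝ] ℝ := ∑ w, (c (e.symm w.1) - c j0) • LinearMap.proj w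
  have hf : ∀ v, f v = ∑ w : {w : InfinitePlace K // w ≠ w₀}, (c (e.symm w.1) - c j0) * v w := by
    intro v
    simp [f, LinearMap.sum_apply]
  have hker : (⊤ : Submodule ℝ (logSpace K)) ≤ LinearMap.ker f := by
    rw [← Units.dirichletUnitTheorem.unitLattice_span_eq_top K, Submodule.span_le]
    rintro v hv
    obtain ⟨x, -, rfl⟩ := hv
    rw [SetLike.mem_coe, LinearMap.mem_ker, hf]
    have h4 := h1 x.toMul
    rw [← e.symm.sum_comp, Fintype.sum_eq_add_sum_subtype_ne _ w₀, ← hj0, sub_self, zero_mul,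
      zero_add] at h4
    rw [← h4]
    apply Finset.sum_congr rfl
    intro w _
    congr 1
    have h5 : plc σ (e.symm w.1) = w.1 := e.apply_symm_apply w.1
    have h6 : w.1.IsReal := by rw [← h5]; exact plc_isReal σ _
    change (InfinitePlace.mult w.1 : ℝ) * Real.log (w.1 (x.toMul : K)) = _
    rw [InfinitePlace.mult_isReal ⟨w.1, h6⟩]
    conv_lhs => rw [← h5]
    rw [plc_apply]
    simp
  intro j
  by_cases hj : plc σ j = w₀
  · have : j = j0 := plc_injective σ (hj.trans hj0'.symm)
    rw [this]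
  · have h7 := hker (Submodule.mem_top (x := Pi.single (⟨plc σ j, hj⟩ :
      {w : InfinitePlace K // w ≠ w₀}) (1 : ℝ)))
    rw [LinearMap.mem_ker, hf, Finset.sum_eq_single (⟨plc σ j, hj⟩ :
      {w : InfinitePlace K // w ≠ w₀})] at h7
    · simp only [Pi.single_eq_same, mul_one] at h7
      have h8 : e.symm (plc σ j) = j := e.symm_apply_apply j
      rw [h8] at h7
      linarith
    · intro b _ hb
      rw [Pi.single_eq_of_ne hb, mul_zero]
    · intro hh
      exact absurd (Finset.mem_univ _) hh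

end places

section orders

variable {K : Type} [Field K] [NumberField K] {O : Subring K}

lemma exists_conductor (hO : IsOrder O) : ∃ N : ℕ, 0 < N ∧ ∀ x : 𝓞 K, (N : K) * x ∈ O := by
  classical
  have h1 : ∀ x : K, ∃ N : ℕ, 0 < N ∧ (N : K) * x ∈ O := by
    intro x
    have hx : x ∈ Submodule.span ℚ (O : Set K) := by rw [hO.2]; trivial
    induction hx using Submodule.span_induction with
    | mem x hx => exact ⟨1, one_pos, by simpa using hx⟩
    | zero => exact ⟨1, one_pos, by simp⟩
    | add x y _ _ hx hy =>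
      obtain ⟨N, hN, hNx⟩ := hx
      obtain ⟨M, hM, hMy⟩ := hy
      refine ⟨N * M, Nat.mul_pos hN hM, ?_⟩
      have : ((N * M : ℕ) : K) * (x + y) = (M : K) * ((N : K) * x) + (N : K) * ((M : K) * y) := by
        push_cast; ring
      rw [this]
      exact O.add_mem (O.mul_mem (natCast_mem O M) hNx) (O.mul_mem (natCast_mem O N) hMy)
    | smul q x _ hx =>
      obtain ⟨N, hN, hNx⟩ := hx
      refine ⟨q.den * N, Nat.mul_pos q.den_pos hN, ?_⟩
      have : ((q.den * N : ℕ) : K) * (q • x) = (q.num : K) * ((N : K) * x) := by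
        rw [Algebra.smul_def]
        have h2 : (q.den : K) * (algebraMap ℚ K q) = (q.num : K) := by
          have h3 : ((q.den : ℚ) * q) = (q.num : ℚ) := Rat.den_mul_eq_num q
          have h4 := congrArg (algebraMap ℚ K) h3
          rw [map_mul, map_natCast, map_intCast] at h4
          exact h4
        push_cast
        linear_combination (N : K) * x * h2
      rw [this]
      exact O.mul_mem (intCast_mem O _) hNx
  obtain ⟨s, hs⟩ := (Module.Finite.fg_top : (⊤ : Submodule ℤ (𝓞 K)).FG)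
  choose N hN hNx using h1
  refine ⟨∏ y ∈ s, N (y : K), Finset.prod_pos fun y _ => hN _, ?_⟩
  intro x
  have hx : x ∈ Submodule.span ℤ (s : Set (𝓞 K)) := by rw [hs]; trivial
  induction hx using Submodule.span_induction with
  | mem x hx =>
    have h2 : ((∏ y ∈ s, N (y : K) : ℕ) : K) * (x : K) =
        ((∏ y ∈ s.erase x, N (y : K) : ℕ) : K) * ((N (x : K) : K) * (x : K)) := by
      rw [← Finset.mul_prod_erase s (fun y => N (y : K)) hx]
      push_cast
      ring
    rw [h2]
    exact O.mul_mem (natCast_mem O _) (hNx _)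
  | zero => simp
  | add x y _ _ hx hy =>
    have h2 : ((x + y : 𝓞 K) : K) = (x : K) + (y : K) := rfl
    rw [h2, mul_add]
    exact O.add_mem hx hy
  | smul a x _ hx =>
    have h2 : ((a • x : 𝓞 K) : K) = (a : K) * (x : K) := by simp
    rw [h2, mul_left_comm]
    exact O.mul_mem (intCast_mem O _) hx

lemma exists_unit_exponent {N : ℕ} (hN : 0 < N) (hNO : ∀ x : 𝓞 K, (N : K) * x ∈ O) :
    ∃ M : ℕ, 0 < M ∧ ∀ ε : (𝓞 K)ˣ, (ε : K) ^ M ∈ O := by
  classical
  set I : Ideal (𝓞 K) := Ideal.span {(N : 𝓞 K)} with hI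
  have hne : I ≠ ⊥ := by
    rw [hI, Ne, Ideal.span_singleton_eq_bot]
    exact_mod_cast hN.ne'
  have : Finite (𝓞 K ⧸ I) := I.finiteQuotientOfFreeOfNeBot hne
  have : Fintype (𝓞 K ⧸ I) := Fintype.ofFinite _
  refine ⟨Fintype.card (𝓞 K ⧸ I)ˣ, Fintype.card_pos, ?_⟩
  intro ε
  have h1 : (Units.map (Ideal.Quotient.mk I : 𝓞 K →* 𝓞 K ⧸ I) ε) ^
      Fintype.card (𝓞 K ⧸ I)ˣ = 1 := pow_card_eq_one
  have h2 : Ideal.Quotient.mk I ((ε : 𝓞 K) ^ Fintype.card (𝓞 K ⧸ I)ˣ) =
      Ideal.Quotient.mk I 1 := by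
    have h5 := congrArg Units.val h1
    rw [Units.val_pow_eq_pow_val, Units.coe_map, Units.val_one] at h5
    rw [map_pow, map_one]
    exact h5
  rw [Ideal.Quotient.eq] at h2
  obtain ⟨a, ha⟩ := Ideal.mem_span_singleton'.1 h2
  have h3 : (ε : K) ^ Fintype.card (𝓞 K ⧸ I)ˣ = 1 + (N : K) * (a : K) := by
    have := congrArg (algebraMap (𝓞 K) K) ha
    simp only [map_mul, map_sub, map_pow, map_one, map_natCast] at this
    linear_combination -this
  rw [h3]
  exact O.add_mem O.one_mem (hNO a)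

end orders

section stab

variable {K : Type} [Field K] [NumberField K] (σ : Fin n ≃ (K →+* ℝ)) {O : Subring K}

lemma mem_stab_of_unit {g : SLR n} {L : Set K} {w : Fin n → ℤˣ} {t : Fin n → ℝ}
    (hg : rowLattice g = {v | ∃ α ∈ L, v = fun j => t j * (σ j α * ((w j : ℤ) : ℝ))})
    {η : K} (h0 : η ≠ 0) (hη : ∀ j, 0 < σ j η) (h1 : ∀ α ∈ L, η * α ∈ L)
    (h2 : ∀ α ∈ L, η⁻¹ * α ∈ L) :
    ∃ u ∈ torusStabilizer (X.mk g), (fun j => Real.exp (fullCoord u j)) = fun j => σ j η := by
  have e : rowLattice g = scaleBy (fun j => σ j η) (rowLattice g) := by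
    ext v
    constructor
    · intro hv
      rw [hg] at hv
      obtain ⟨α, hα, rfl⟩ := hv
      refine ⟨fun j => t j * (σ j (η⁻¹ * α) * ((w j : ℤ) : ℝ)), ?_, ?_⟩
      · rw [hg]
        exact ⟨_, h2 α hα, rfl⟩
      · funext j
        change t j * (σ j α * ((w j : ℤ) : ℝ)) =
          t j * (σ j (η⁻¹ * α) * ((w j : ℤ) : ℝ)) * σ j η
        rw [map_mul, map_inv₀]
        have := (hη j).ne'
        field_simp
    · rintro ⟨x, hx, rfl⟩
      rw [hg] at hx ⊢
      obtain ⟨α, hα, rfl⟩ := hx
      refine ⟨η * α, h1 α hα, ?_⟩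
      funext j
      rw [map_mul]
      ring
  obtain ⟨u, hu, hu2⟩ := exists_torus_of_scale hη e
  exact ⟨u, hu.symm, hu2⟩

lemma span_stab (hn : Module.finrank ℚ K = n) (hO : IsOrder O) {x : X n}
    (hx : IsFracPoint σ O x) :
    Submodule.span ℝ (torusStabilizer x : Set (Fin (n - 1) → ℝ)) = ⊤ := by
  classical
  obtain ⟨N, hN, hNO⟩ := exists_conductor hO
  obtain ⟨M, hM, hMO⟩ := exists_unit_exponent hN hNO
  obtain ⟨I, w, c, g, hI, hc, rfl, hg⟩ := hx
  obtain ⟨m, rfl⟩ : ∃ m, n = m + 1 := by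
    have : 0 < n := by rw [← hn]; exact Module.finrank_pos
    exact ⟨n - 1, by omega⟩
  by_contra hcon
  obtain ⟨f, hf0, hf⟩ := Submodule.exists_le_ker_of_lt_top _ (lt_top_iff_ne_top.2 hcon)
  apply hf0
  set a : Fin (m + 1 - 1) → ℝ := fun i => f (Pi.single i 1) with ha
  have hfa : ∀ v, f v = ∑ i, a i * v i := by
    intro v
    conv_lhs => rw [← Finset.univ_sum_single v]
    rw [map_sum]
    apply Finset.sum_congr rfl
    intro i _
    have : Pi.single i (v i) = (v i) • (Pi.single i (1 : ℝ) : Fin (m + 1 - 1) → ℝ) := by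
      rw [← Pi.single_smul, smul_eq_mul, mul_one]
    rw [this, map_smul, smul_eq_mul, mul_comm]
  let cc : Fin (m + 1) → ℝ := fun j => if h : (j : ℕ) < m + 1 - 1 then a ⟨j, h⟩ else 0
  have hcc : ∀ L : Fin (m + 1) → ℝ, ∑ j, cc j * L j =
      ∑ i : Fin m, a i * L (Fin.castSucc i) := by
    intro L
    rw [Fin.sum_univ_castSucc]
    have h1 : cc (Fin.last m) = 0 := by simp [cc]
    rw [h1, zero_mul, add_zero]
    apply Finset.sum_congr rfl
    intro i _
    have h2 : cc (Fin.castSucc i) = a i := by simp [cc]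
    rw [h2]
  have hvan : ∀ ε : (𝓞 K)ˣ, ∑ j, cc j * Real.log |σ j (ε : K)| = 0 := by
    intro ε
    have hε0 : (ε : K) ≠ 0 := by
      intro h
      exact ε.ne_zero (RingOfIntegers.ext h)
    obtain ⟨u, hu, hu2⟩ := mem_stab_of_unit σ (L := (I : Set K))
      (t := fun _ => c) (w := w) hg (η := (ε : K) ^ (2 * M)) (pow_ne_zero _ hε0)
      (by
        intro j
        rw [map_pow, pow_mul]
        have : σ j (ε : K) ≠ 0 := (map_ne_zero (σ j)).2 hε0
        positivity)
      (by
        intro α hα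
        have h1 : (ε : K) ^ (2 * M) ∈ O := by
          rw [mul_comm, pow_mul]
          exact O.pow_mem (hMO ε) 2
        exact hI.smul _ h1 α hα)
      (by
        intro α hα
        have h1 : ((ε : K) ^ (2 * M))⁻¹ ∈ O := by
          have h2 : ((ε : K) ^ (2 * M))⁻¹ = (((ε⁻¹ : (𝓞 K)ˣ) : K) ^ M) ^ 2 := by
            rw [← pow_mul, mul_comm M 2, ← inv_pow]
            congr 1
            simp
          rw [h2]
          exact O.pow_mem (hMO ε⁻¹) 2
        exact hI.smul _ h1 α hα)
    have h3 : f u = 0 := hf (Submodule.subset_span hu)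
    rw [hfa] at h3
    have h4 : ∀ j, fullCoord u j = 2 * M * Real.log |σ j (ε : K)| := by
      intro j
      have h5 : Real.exp (fullCoord u j) = σ j ((ε : K) ^ (2 * M)) := congrFun hu2 j
      have h6 := congrArg Real.log h5
      rw [Real.log_exp, map_pow, Real.log_pow] at h6
      rw [h6, Real.log_abs]
      push_cast
      ring
    have h7 : ∀ i : Fin m, u i = 2 * M * Real.log |σ (Fin.castSucc i) (ε : K)| := by
      intro i
      rw [← h4]
      simp [fullCoord]
    rw [hcc]
    have h8 : ∑ i : Fin m, a i * u i =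
        2 * M * ∑ i : Fin m, a i * Real.log |σ (Fin.castSucc i) (ε : K)| := by
      rw [Finset.mul_sum]
      apply Finset.sum_congr rfl
      intro i _
      rw [h7 i]
      ring
    have h9 : ∑ i : Fin m, a i * u i = 0 := h3
    rw [h8] at h9
    have hM' : (2 * (M : ℝ)) ≠ 0 := by positivity
    exact (mul_eq_zero.1 h9).resolve_left hM'
  have hall := log_functional σ hn cc hvan
  have hz : ∀ i : Fin m, a i = 0 := by
    intro i
    have h1 := hall (Fin.castSucc i) (Fin.last m)
    have h2 : cc (Fin.castSucc i) = a i := by simp [cc]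
    have h3 : cc (Fin.last m) = 0 := by simp [cc]
    rw [h2, h3] at h1
    exact h1
  refine LinearMap.ext fun v => ?_
  rw [hfa, LinearMap.zero_apply]
  exact Finset.sum_eq_zero fun i _ => by rw [hz i, zero_mul]

end stab

end Vale.Agent.P007
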